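import Vale.Agent.P174.Tower

/-!
# Actions on `Q × S` in general universes, for an arbitrary set of unknowns.
-/

universe u v w y

namespace Vale.Agent.P174.Rel

open Monoid

section transversal

variable {G : Type u} {Q : Type v} [Group G] [Group Q] (π : G →* Q)

/-- Data of a transversal for the orbits of `π G` acting on `Q` by left multiplication. -/
structure Transv where
  /-- the orbit representative -/
  idx : Q → Q
  /-- an element of `G` moving the representative to the given point -/
  a : Q → G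
  idx_mul : ∀ g x, idx (π g * x) = idx x
  a_spec : ∀ x, π (a x) * idx x = x

theorem exists_transv : Nonempty (Transv π) := by
  classical
  let r : Setoid Q :=
    { r := fun x y => ∃ g, π g * x = y
      iseqv :=
        { refl := fun x => ⟨1, by simp⟩
          symm := by
            rintro x y ⟨g, rfl⟩
            exact ⟨g⁻¹, by simp⟩
          trans := by
            rintro x y z ⟨g, rfl⟩ ⟨h, rfl⟩
            exact ⟨h * g, by simp [mul_assoc]⟩ } }
  have hout : ∀ x : Q, ∃ g, π g * (Quotient.out (Quotient.mk r x)) = x := by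
    intro x
    exact Quotient.exact (Quotient.out_eq (Quotient.mk r x))
  choose a ha using hout
  refine ⟨⟨fun x => Quotient.out (Quotient.mk r x), a, ?_, ha⟩⟩
  intro g x
  have : Quotient.mk r (π g * x) = Quotient.mk r x := by
    apply Quotient.sound
    exact ⟨g⁻¹, by simp⟩
  simp only [this]

variable {π}

theorem Transv.a_eq (D : Transv π) (x : Q) : π (D.a x) = x * (D.idx x)⁻¹ := by
  have := D.a_spec x
  exact eq_mul_inv_of_mul_eq this

/-- The cocycle with values in the kernel attached to a transversal. -/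
def Transv.coc (D : Transv π) (g : G) (x : Q) : π.ker :=
  ⟨(D.a (π g * x))⁻¹ * g * D.a x, by
    rw [MonoidHom.mem_ker]
    simp only [map_mul, map_inv, D.a_eq, D.idx_mul]
    group⟩

theorem Transv.coc_mul (D : Transv π) (g h : G) (x : Q) :
    D.coc (g * h) x = D.coc g (π h * x) * D.coc h x := by
  apply Subtype.ext
  simp only [Transv.coc, Subgroup.coe_mul, map_mul, mul_assoc]
  group

theorem Transv.coc_one (D : Transv π) (x : Q) : D.coc 1 x = 1 := by
  apply Subtype.ext
  simp [Transv.coc]

/-- The transversal of a trivial homomorphism. -/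
def Transv.triv (h : ∀ g, π g = 1) : Transv π where
  idx := id
  a := fun _ => 1
  idx_mul g x := by simp [h]
  a_spec x := by simp

/-- A transversal can be chosen so that a given element with nontrivial image has trivial cocycle
at a given point. -/
theorem exists_transv_kill (a₀ : G) (y : Q) (h : π a₀ ≠ 1) : ∃ D : Transv π, D.coc a₀ y = 1 := by
  classical
  obtain ⟨D⟩ := exists_transv π
  have hne : y ≠ π a₀ * y := by
    intro e
    exact h (mul_eq_right.1 e.symm)
  refine ⟨⟨D.idx, fun x => if x = π a₀ * y then a₀ * D.a y else D.a x, D.idx_mul, ?_⟩, ?_⟩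
  · intro x
    by_cases hx : x = π a₀ * y
    · subst hx
      simp only [if_true, map_mul, D.idx_mul, mul_assoc, D.a_spec]
    · simp only [hx, if_false, D.a_spec]
  · apply Subtype.ext
    simp [Transv.coc, hne]

end transversal

section action

variable {G : Type u} {Q : Type v} {S : Type w} {Y : Type y} [Group G] [Group Q] [Group S]

/-- A `Q`-indexed cocycle on `G` with values in a group `S`. -/
structure Coc (π : G →* Q) (S : Type w) [Group S] where
  /-- the cocycle -/
  k : G → Q → S
  k_mul : ∀ g h x, k (g * h) x = k g (π h * x) * k h x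
  k_one : ∀ x, k 1 x = 1

variable {π : G →* Q}

/-- The permutation of `Q × S` attached to `g ∈ G`. -/
def gPerm (κ : Coc π S) (g : G) : Equiv.Perm (Q × S) where
  toFun p := (π g * p.1, κ.k g p.1 * p.2)
  invFun p := (π g⁻¹ * p.1, κ.k g⁻¹ p.1 * p.2)
  left_inv := by
    rintro ⟨x, s⟩
    have h := κ.k_mul g⁻¹ g x
    simp only [inv_mul_cancel, κ.k_one] at h
    apply Prod.ext
    · simp
    · change κ.k g⁻¹ (π g * x) * (κ.k g x * s) = s
      rw [← mul_assoc, ← h, one_mul]
  right_inv := by
    rintro ⟨x, s⟩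
    have h := κ.k_mul g g⁻¹ x
    simp only [mul_inv_cancel, κ.k_one] at h
    apply Prod.ext
    · simp
    · change κ.k g (π g⁻¹ * x) * (κ.k g⁻¹ x * s) = s
      rw [← mul_assoc, ← h, one_mul]

/-- The homomorphism `G → Perm (Q × S)`. -/
def gHom (κ : Coc π S) : G →* Equiv.Perm (Q × S) :=
  MonoidHom.mk' (gPerm κ) (by
    intro g h
    ext ⟨x, s⟩
    · simp [gPerm, mul_assoc]
    · simp [gPerm, κ.k_mul, mul_assoc])

/-- The permutation of `Q × S` attached to the unknown `y`. -/
def xPerm (t : Y → Q) (τ : Y × Q → S) (j : Y) : Equiv.Perm (Q × S) where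
  toFun p := (t j * p.1, τ (j, p.1) * p.2)
  invFun p := ((t j)⁻¹ * p.1, (τ (j, (t j)⁻¹ * p.1))⁻¹ * p.2)
  left_inv := by
    rintro ⟨x, s⟩
    simp
  right_inv := by
    rintro ⟨x, s⟩
    simp

/-- Induction principle for `G * F(Y)`: generators, products and inverses. -/
theorem starY_induction {P : Monoid.Coprod G (FreeGroup Y) → Prop}
    (hinl : ∀ g, P (Monoid.Coprod.inl g))
    (hx : ∀ j, P (Monoid.Coprod.inr (FreeGroup.of j)))
    (hmul : ∀ u v, P u → P v → P (u * v))
    (hinv : ∀ u, P u → P u⁻¹) (w : Monoid.Coprod G (FreeGroup Y)) : P w := by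
  induction w using Monoid.Coprod.induction_on with
  | inl g => exact hinl g
  | inr y =>
    induction y using FreeGroup.induction_on with
    | C1 => simpa using hinl 1
    | of j => exact hx j
    | inv_of j ih => simpa using hinv _ ih
    | mul a b ha hb => simpa using hmul _ _ ha hb
  | mul a b ha hb => exact hmul _ _ ha hb

/-- The action homomorphism of `G * F(Y)` on `Q × S`. -/
noncomputable def rho (κ : Coc π S) (t : Y → Q) (τ : Y × Q → S) :
    Monoid.Coprod G (FreeGroup Y) →* Equiv.Perm (Q × S) :=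
  Monoid.Coprod.lift (gHom κ) (FreeGroup.lift (xPerm t τ))

/-- The evaluation homomorphism of `G * F(Y)` into `Q` at the point `t`. -/
noncomputable def theta (π : G →* Q) (t : Y → Q) : Monoid.Coprod G (FreeGroup Y) →* Q :=
  Monoid.Coprod.lift π (FreeGroup.lift t)

@[simp] theorem theta_inl (t : Y → Q) (g : G) :
    theta π t (Monoid.Coprod.inl g) = π g := by simp [theta]

@[simp] theorem theta_x (t : Y → Q) (j : Y) :
    theta π t (Monoid.Coprod.inr (FreeGroup.of j)) = t j := by simp [theta]

@[simp] theorem rho_inl (κ : Coc π S) (t : Y → Q) (τ : Y × Q → S) (g : G) (p : Q × S) :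
    rho κ t τ (Monoid.Coprod.inl g) p = (π g * p.1, κ.k g p.1 * p.2) := by
  simp [rho, gHom, gPerm]

@[simp] theorem rho_x (κ : Coc π S) (t : Y → Q) (τ : Y × Q → S) (j : Y) (p : Q × S) :
    rho κ t τ (Monoid.Coprod.inr (FreeGroup.of j)) p = (t j * p.1, τ (j, p.1) * p.2) := by
  simp [rho, xPerm]

/-- The cocycle `G * F(Y) → (Q → S)` extending `κ` and `τ`. -/
noncomputable def Fn (κ : Coc π S) (t : Y → Q) (τ : Y × Q → S)
    (w : Monoid.Coprod G (FreeGroup Y)) (x : Q) : S :=
  (rho κ t τ w (x, 1)).2

theorem rho_apply (κ : Coc π S) (t : Y → Q) (τ : Y × Q → S) (w : Monoid.Coprod G (FreeGroup Y)) :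
    ∀ (x : Q) (s : S), rho κ t τ w (x, s) = (theta π t w * x, Fn κ t τ w x * s) := by
  induction w using starY_induction with
  | hinl g => intro x s; simp [Fn]
  | hx j => intro x s; simp [Fn]
  | hmul u v hu hv =>
    intro x s
    have h1 : Fn κ t τ (u * v) x = Fn κ t τ u (theta π t v * x) * Fn κ t τ v x := by
      simp only [Fn, map_mul, Equiv.Perm.coe_mul, Function.comp_apply]
      have := hv x 1
      simp only [Fn, mul_one] at this
      rw [this, hu]
      simp [Fn]
    rw [h1, map_mul, Equiv.Perm.coe_mul, Function.comp_apply, hv, hu]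
    simp [mul_assoc]
  | hinv u hu =>
    intro y s
    have key : ∀ s : S, rho κ t τ u⁻¹ (y, s)
        = ((theta π t u)⁻¹ * y, (Fn κ t τ u ((theta π t u)⁻¹ * y))⁻¹ * s) := by
      intro s
      have h1 : rho κ t τ u ((theta π t u)⁻¹ * y, (Fn κ t τ u ((theta π t u)⁻¹ * y))⁻¹ * s)
          = (y, s) := by
        rw [hu]; simp
      conv_lhs => rw [← h1]
      rw [map_inv]
      exact (rho κ t τ u).symm_apply_apply _
    have h2 : Fn κ t τ u⁻¹ y = (Fn κ t τ u ((theta π t u)⁻¹ * y))⁻¹ := by
      change (rho κ t τ u⁻¹ (y, 1)).2 = _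
      rw [key 1, mul_one]
    rw [key, h2, map_inv]

theorem Fn_mul (κ : Coc π S) (t : Y → Q) (τ : Y × Q → S) (u v : Monoid.Coprod G (FreeGroup Y))
    (x : Q) : Fn κ t τ (u * v) x = Fn κ t τ u (theta π t v * x) * Fn κ t τ v x := by
  have h := rho_apply κ t τ (u * v) x 1
  rw [map_mul, Equiv.Perm.coe_mul, Function.comp_apply, rho_apply κ t τ v, rho_apply κ t τ u] at h
  have h2 := congrArg Prod.snd h
  simpa using h2.symm

theorem Fn_one (κ : Coc π S) (t : Y → Q) (τ : Y × Q → S) (x : Q) :
    Fn κ t τ (1 : Monoid.Coprod G (FreeGroup Y)) x = 1 := by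
  simp [Fn]

theorem Fn_inv (κ : Coc π S) (t : Y → Q) (τ : Y × Q → S) (u : Monoid.Coprod G (FreeGroup Y))
    (x : Q) : Fn κ t τ u⁻¹ (theta π t u * x) = (Fn κ t τ u x)⁻¹ := by
  have h := Fn_mul κ t τ u⁻¹ u x
  rw [inv_mul_cancel, Fn_one] at h
  exact (eq_inv_of_mul_eq_one_left h.symm)

@[simp] theorem Fn_inl (κ : Coc π S) (t : Y → Q) (τ : Y × Q → S) (g : G) (x : Q) :
    Fn κ t τ (Monoid.Coprod.inl g) x = κ.k g x := by
  simp [Fn]

@[simp] theorem Fn_x (κ : Coc π S) (t : Y → Q) (τ : Y × Q → S) (j : Y) (x : Q) :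
    Fn κ t τ (Monoid.Coprod.inr (FreeGroup.of j)) x = τ (j, x) := by
  simp [Fn]

/-- Push a cocycle along a homomorphism. -/
def Coc.push {S' : Type*} [Group S'] (κ : Coc π S) (φ : S →* S') : Coc π S' where
  k g x := φ (κ.k g x)
  k_mul g h x := by rw [κ.k_mul, map_mul]
  k_one x := by rw [κ.k_one, map_one]

/-- Value of the extended cocycle on a conjugate of an element in the kernel of `theta`. -/
theorem Fn_conj (κ : Coc π S) (t : Y → Q) (τ : Y × Q → S) (u z : Monoid.Coprod G (FreeGroup Y))
    (hz : theta π t z = 1) (x : Q) :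
    Fn κ t τ (u * z * u⁻¹) x
      = Fn κ t τ u ((theta π t u)⁻¹ * x) * Fn κ t τ z ((theta π t u)⁻¹ * x)
          * (Fn κ t τ u ((theta π t u)⁻¹ * x))⁻¹ := by
  have h1 := Fn_inv κ t τ u ((theta π t u)⁻¹ * x)
  rw [mul_inv_cancel_left] at h1
  rw [Fn_mul, Fn_mul, h1]
  simp [hz]

/-- Value of the extended cocycle on the inverse of an element in the kernel of `theta`. -/
theorem Fn_inv_of_ker (κ : Coc π S) (t : Y → Q) (τ : Y × Q → S)
    (z : Monoid.Coprod G (FreeGroup Y)) (hz : theta π t z = 1) (x : Q) :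
    Fn κ t τ z⁻¹ x = (Fn κ t τ z x)⁻¹ := by
  have h := Fn_inv κ t τ z x
  rwa [hz, one_mul] at h

end action

section coprod_cocycle

variable {C : Type u} {G : C → Type u} [∀ c, Group (G c)] {Q : Type v} {B : Type w} [Group Q]
  [Group B] {P : Monoid.CoprodI G →* Q}

/-- The action of a free product on `Q × B` obtained from cocycles on the factors. -/
noncomputable def coprodAct (κ : ∀ c, Coc (P.comp (Monoid.CoprodI.of : G c →* _)) B) :
    Monoid.CoprodI G →* Equiv.Perm (Q × B) :=
  Monoid.CoprodI.lift fun c => gHom (κ c)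

theorem coprodAct_of (κ : ∀ c, Coc (P.comp (Monoid.CoprodI.of : G c →* _)) B) (c : C) (g : G c)
    (p : Q × B) :
    coprodAct κ (Monoid.CoprodI.of g) p = (P (Monoid.CoprodI.of g) * p.1, (κ c).k g p.1 * p.2) := by
  simp [coprodAct, gHom, gPerm]

theorem coprodAct_apply (κ : ∀ c, Coc (P.comp (Monoid.CoprodI.of : G c →* _)) B)
    (g : Monoid.CoprodI G) : ∀ (x : Q) (s : B),
    coprodAct κ g (x, s) = (P g * x, (coprodAct κ g (x, 1)).2 * s) := by
  induction g using Monoid.CoprodI.induction_on with
  | one => intro x s; simp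
  | of g =>
    intro x s
    simp [coprodAct_of]
  | mul a b ha hb =>
    intro x s
    have h1 : coprodAct κ (a * b) (x, s) = coprodAct κ a (coprodAct κ b (x, s)) := by simp
    have h2 : coprodAct κ (a * b) (x, 1) = coprodAct κ a (coprodAct κ b (x, 1)) := by simp
    obtain ⟨F, hF⟩ : ∃ F, F = (coprodAct κ b (x, 1)).2 := ⟨_, rfl⟩
    have e1 : coprodAct κ b (x, s) = (P b * x, F * s) := by
      have := hb x s
      rw [← hF] at this
      exact this
    have e2 : coprodAct κ b (x, 1) = (P b * x, F) := by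
      have := hb x 1
      rw [mul_one, ← hF] at this
      exact this
    rw [h1, h2, e1, e2, ha (P b * x) (F * s), ha (P b * x) F]
    simp [mul_assoc]

/-- The cocycle on the free product obtained from cocycles on the factors. -/
noncomputable def coprodCoc (κ : ∀ c, Coc (P.comp (Monoid.CoprodI.of : G c →* _)) B) : Coc P B where
  k g x := (coprodAct κ g (x, 1)).2
  k_mul g h x := by
    rw [map_mul, Equiv.Perm.coe_mul, Function.comp_apply, coprodAct_apply κ h x 1, coprodAct_apply κ g]
  k_one x := by simp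

theorem coprodCoc_of (κ : ∀ c, Coc (P.comp (Monoid.CoprodI.of : G c →* _)) B) (c : C) (g : G c)
    (x : Q) : (coprodCoc κ).k (Monoid.CoprodI.of g) x = (κ c).k g x := by
  simp [coprodCoc, coprodAct_of]

end coprod_cocycle

end Vale.Agent.P174.Rel
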