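import Mathlib

/-!
# Injectivity of maps of free products induced by injective maps of the factors.
-/

universe a b

namespace Vale.Agent.P174.Rel

open Monoid

section coprodI

variable {V : Type*} {A : V → Type*} {B : V → Type*} [∀ v, Monoid (A v)] [∀ v, Monoid (B v)]
  (f : ∀ v, A v →* B v)

/-- The map of free products induced by maps of the factors. -/
noncomputable def cMap : CoprodI A →* CoprodI B :=
  CoprodI.lift fun v => CoprodI.of.comp (f v)

@[simp] theorem cMap_of (v : V) (x : A v) :
    cMap f (CoprodI.of x) = CoprodI.of (f v x) := by
  simp [cMap]

theorem cMap_injective (hf : ∀ v, Function.Injective (f v)) : Function.Injective (cMap f) := by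
  classical
  let mw : CoprodI.Word A → CoprodI.Word B := fun w =>
    { toList := w.toList.map fun l => ⟨l.1, f l.1 l.2⟩
      ne_one := by
        intro l hl
        obtain ⟨l', hl', rfl⟩ := List.mem_map.1 hl
        intro h
        apply w.ne_one l' hl'
        apply hf l'.1
        rw [map_one]
        exact h
      chain_ne := by
        rw [List.isChain_map]
        exact w.chain_ne }
  have hprod : ∀ w : CoprodI.Word A, (mw w).prod = cMap f w.prod := by
    intro w
    simp only [CoprodI.Word.prod, mw, map_list_prod, List.map_map]
    congr 1
  intro x y hxy
  have h1 : mw (CoprodI.Word.equiv x) = mw (CoprodI.Word.equiv y) := by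
    apply CoprodI.Word.equiv.symm.injective
    change (mw _).prod = (mw _).prod
    rw [hprod, hprod]
    have hx : (CoprodI.Word.equiv x).prod = x := CoprodI.Word.equiv.symm_apply_apply x
    have hy : (CoprodI.Word.equiv y).prod = y := CoprodI.Word.equiv.symm_apply_apply y
    rw [hx, hy, hxy]
  have h2 : (CoprodI.Word.equiv x).toList = (CoprodI.Word.equiv y).toList := by
    have h3 := congrArg CoprodI.Word.toList h1
    refine List.map_injective_iff.2 ?_ h3
    rintro ⟨i, p⟩ ⟨j, q⟩ h
    simp only [Sigma.mk.injEq] at h
    obtain ⟨rfl, h⟩ := h
    have := hf i (eq_of_heq h)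
    rw [this]
  have h4 : CoprodI.Word.equiv x = CoprodI.Word.equiv y := CoprodI.Word.ext h2
  exact CoprodI.Word.equiv.injective h4

end coprodI

section coprod

variable {M M' : Type a} {N : Type b} [Monoid M] [Monoid M'] [Monoid N]

/-- The two factors of a binary free product, as a family indexed by `Bool`. -/
def Fam (M : Type a) (N : Type b) : Bool → Type (max a b)
  | true => ULift.{b} M
  | false => ULift.{a} N

/-- The monoid structure on the family. -/
instance famMonoid (M : Type a) (N : Type b) [Monoid M] [Monoid N] : ∀ i, Monoid (Fam M N i)
  | true => inferInstanceAs (Monoid (ULift M))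
  | false => inferInstanceAs (Monoid (ULift N))

/-- The inclusion of the first factor. -/
def famL (M : Type a) (N : Type b) [Monoid M] [Monoid N] : M →* Fam M N true :=
  (MulEquiv.ulift (α := M)).symm.toMonoidHom

/-- The inclusion of the second factor. -/
def famR (M : Type a) (N : Type b) [Monoid M] [Monoid N] : N →* Fam M N false :=
  (MulEquiv.ulift (α := N)).symm.toMonoidHom

/-- The projection of the first factor. -/
def famL' (M : Type a) (N : Type b) [Monoid M] [Monoid N] : Fam M N true →* M :=
  (MulEquiv.ulift (α := M)).toMonoidHom

/-- The projection of the second factor. -/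
def famR' (M : Type a) (N : Type b) [Monoid M] [Monoid N] : Fam M N false →* N :=
  (MulEquiv.ulift (α := N)).toMonoidHom

/-- The map from the binary free product to the free product of the family. -/
noncomputable def famIn (M : Type a) (N : Type b) [Monoid M] [Monoid N] :
    Monoid.Coprod M N →* CoprodI (Fam M N) :=
  Monoid.Coprod.lift ((CoprodI.of (i := true)).comp (famL M N))
    ((CoprodI.of (i := false)).comp (famR M N))

/-- The map from the free product of the family to the binary free product. -/
noncomputable def famOut (M : Type a) (N : Type b) [Monoid M] [Monoid N] :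
    CoprodI (Fam M N) →* Monoid.Coprod M N :=
  CoprodI.lift fun i =>
    match i with
    | true => Monoid.Coprod.inl.comp (famL' M N)
    | false => Monoid.Coprod.inr.comp (famR' M N)

theorem famIn_inl (x : M) :
    famIn M N (Monoid.Coprod.inl x) = CoprodI.of (i := true) (famL M N x) := rfl

theorem famIn_inr (x : N) :
    famIn M N (Monoid.Coprod.inr x) = CoprodI.of (i := false) (famR M N x) := rfl

theorem famOut_of_true (x : Fam M N true) :
    famOut M N (CoprodI.of (i := true) x) = Monoid.Coprod.inl (famL' M N x) := by
  rw [famOut, CoprodI.lift_of]
  rfl

theorem famOut_of_false (x : Fam M N false) :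
    famOut M N (CoprodI.of (i := false) x) = Monoid.Coprod.inr (famR' M N x) := by
  rw [famOut, CoprodI.lift_of]
  rfl

theorem famOut_famIn : (famOut M N).comp (famIn M N) = MonoidHom.id _ := by
  apply Monoid.Coprod.hom_ext
  · ext x
    change famOut M N (famIn M N (Monoid.Coprod.inl x)) = Monoid.Coprod.inl x
    rw [famIn_inl, famOut_of_true]
    rfl
  · ext x
    change famOut M N (famIn M N (Monoid.Coprod.inr x)) = Monoid.Coprod.inr x
    rw [famIn_inr, famOut_of_false]
    rfl

/-- The map of families induced by a map of the first factor. -/
def famMap (f : M →* M') : ∀ i, Fam M N i →* Fam M' N i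
  | true => (famL M' N).comp (f.comp (famL' M N))
  | false => MonoidHom.id _

theorem famMap_injective (f : M →* M') (hf : Function.Injective f) (i : Bool) :
    Function.Injective (famMap (N := N) f i) := by
  cases i with
  | true =>
    intro x y h
    have h1 : famL M' N (f (famL' M N x)) = famL M' N (f (famL' M N y)) := h
    have h2 : f (famL' M N x) = f (famL' M N y) := (MulEquiv.ulift (α := M')).symm.injective h1
    have h3 : famL' M N x = famL' M N y := hf h2
    exact (MulEquiv.ulift (α := M)).injective h3
  | false =>
    exact fun x y h => h

theorem coprod_map_injective (f : M →* M') (hf : Function.Injective f) :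
    Function.Injective (Monoid.Coprod.map f (MonoidHom.id N)) := by
  have hsq : (cMap (famMap (N := N) f)).comp (famIn M N)
      = (famIn M' N).comp (Monoid.Coprod.map f (MonoidHom.id N)) := by
    apply Monoid.Coprod.hom_ext
    · ext x
      change cMap (famMap (N := N) f) (famIn M N (Monoid.Coprod.inl x))
        = famIn M' N (Monoid.Coprod.inl (f x))
      rw [famIn_inl, famIn_inl, cMap_of]
      rfl
    · ext x
      change cMap (famMap (N := N) f) (famIn M N (Monoid.Coprod.inr x))
        = famIn M' N (Monoid.Coprod.inr x)
      rw [famIn_inr, famIn_inr, cMap_of]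
      rfl
  have hin : Function.Injective (famIn M N) := by
    apply Function.LeftInverse.injective (g := famOut M N)
    intro x
    exact DFunLike.congr_fun famOut_famIn x
  intro x y h
  apply hin
  apply cMap_injective (famMap (N := N) f) (famMap_injective f hf)
  have := DFunLike.congr_fun hsq x
  have h2 := DFunLike.congr_fun hsq y
  simp only [MonoidHom.comp_apply] at this h2
  rw [this, h2, h]

end coprod

end Vale.Agent.P174.Rel
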