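import Vale.Agent.P174.Rel.Words

/-!
# The lifting step: a witness over `A` with a homomorphism to `Q` gives a witness over the kernels.
-/

universe u y r

namespace Vale.Agent.P174.Rel

open Monoid

section lift

variable {V : Type u} {A : V → Type u} [∀ v, Group (A v)] {Y : Type y} {R : Type r} {Q : Type}
  [Group Q] (π : Monoid.CoprodI A →* Q)

/-- The component of a homomorphism on the free product. -/
abbrev pc (v : V) : A v →* Q := π.comp Monoid.CoprodI.of

/-- The family of kernels of the components, one copy for each point of `Q`. -/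
abbrev AK (p : V × Q) : Type u := (pc π p.1).ker

variable {π}
variable (D : ∀ v, Transv (pc π v))

/-- The cocycle on a factor. -/
noncomputable def factorCoc (v : V) : Coc (pc π v) (Monoid.CoprodI (AK π)) where
  k g x := Monoid.CoprodI.of (M := AK π) (i := (v, (D v).idx x)) ((D v).coc g x)
  k_mul g h x := by
    rw [(D v).coc_mul, map_mul, (D v).idx_mul]
  k_one x := by
    rw [(D v).coc_one, map_one]

/-- The cocycle on the free product. -/
noncomputable def totCoc : Coc π (Monoid.CoprodI (AK π)) :=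
  coprodCoc fun v => factorCoc D v

/-- The lift of a coefficient letter at a point. -/
def liftCo (c : Σ v, A v) (x : Q) : Σ p, AK π p :=
  ⟨(c.1, (D c.1).idx x), (D c.1).coc c.2 x⟩

theorem of_liftCo (c : Σ v, A v) (x : Q) :
    Monoid.CoprodI.of (liftCo D c x).2 = (totCoc D).k (Monoid.CoprodI.of c.2) x := by
  rw [totCoc, coprodCoc_of]
  rfl

/-- The lift of a word in the coefficients at a point. -/
noncomputable def liftC : List (Σ v, A v) → Q → List (Σ p, AK π p)
  | [], _ => []
  | c :: W, x => liftCo D c (π (evalC W) * x) :: liftC W x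

theorem evalC_liftC (W : List (Σ v, A v)) (x : Q) :
    evalC (liftC D W x) = (totCoc D).k (evalC W) x := by
  induction W with
  | nil => simp [liftC, (totCoc D).k_one]
  | cons c W ih =>
    simp only [liftC, evalC_cons, (totCoc D).k_mul, ih]
    rw [of_liftCo]

variable (t : Y → Q)

/-- The lift of a letter at a point. -/
def liftL : Letter A Y → Q → Letter (AK π) (Y × Q)
  | Sum.inl c, x => Sum.inl (liftCo D c x)
  | Sum.inr (y, true), x => Sum.inr ((y, x), true)
  | Sum.inr (y, false), x => Sum.inr ((y, (t y)⁻¹ * x), false)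

/-- The lift of a word at a point. -/
noncomputable def liftW : List (Letter A Y) → Q → List (Letter (AK π) (Y × Q))
  | [], _ => []
  | l :: W, x => liftL D t l (theta π t (evalW W) * x) :: liftW W x

theorem evalL_liftL (l : Letter A Y) (x : Q) :
    evalL (liftL D t l x) = bigF (totCoc D) t (evalL l) x := by
  rcases l with c | ⟨y, b⟩
  · simp only [liftL, evalL, bigF, Fn_inl, bigCoc, Coc.push]
    rw [of_liftCo]
  · cases b
    · simp only [liftL, evalL, bigF]
      have h := Fn_inv (bigCoc (totCoc D) Y) t (bigTau _ Y Q)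
        (Monoid.Coprod.inr (FreeGroup.of y) : Monoid.Coprod _ (FreeGroup Y)) ((t y)⁻¹ * x)
      rw [theta_x, mul_inv_cancel_left, Fn_x] at h
      rw [h]
      rfl
    · simp only [liftL, evalL, bigF, Fn_x]
      rfl

theorem evalW_liftW (W : List (Letter A Y)) (x : Q) :
    evalW (liftW D t W x) = bigF (totCoc D) t (evalW W) x := by
  induction W with
  | nil =>
    simp only [liftW, evalW_nil, bigF]
    rw [Fn_one]
  | cons l W ih =>
    simp only [liftW, evalW_cons, evalL_liftL, ih]
    simp only [bigF]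
    rw [Fn_mul]

/-- A product of elements in the kernel of `theta`. -/
theorem Fn_list_prod {S : Type*} [Group S] (κ : Coc π S) (τ : Y × Q → S)
    (l : List (BG A Y)) (hl : ∀ z ∈ l, theta π t z = 1) (x : Q) :
    Fn κ t τ l.prod x = (l.map fun z => Fn κ t τ z x).prod := by
  induction l with
  | nil => simp [Fn_one]
  | cons z l ih =>
    have h1 : theta π t l.prod = 1 := by
      rw [map_list_prod]
      apply List.prod_eq_one
      intro b hb
      obtain ⟨z', hz', rfl⟩ := List.mem_map.1 hb
      exact hl z' (by simp [hz'])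
    simp only [List.prod_cons, List.map_cons]
    rw [Fn_mul, h1, one_mul, ih fun z' hz' => hl z' (by simp [hz'])]

theorem theta_sg (b : Bool) (z : BG A Y) (hz : theta π t z = 1) :
    theta π t (sg b z) = 1 := by
  cases b <;> simp [sg, hz]

theorem theta_facVal (rel : R → List (Letter A Y))
    (ht : ∀ r, theta π t (evalW (rel r)) = 1) (f : List (Letter A Y) × R × Bool) :
    theta π t (facVal rel f) = 1 := by
  simp only [facVal, map_mul, map_inv, theta_sg t f.2.2 _ (ht f.2.1)]
  simp

/-- The level at which a factor of the product is to be read. -/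
noncomputable def lvl (f : List (Letter A Y) × R × Bool) : Q :=
  (theta π t (evalW f.1))⁻¹

/-- The lift of a factor. -/
noncomputable def liftF (f : List (Letter A Y) × R × Bool) :
    List (Letter (AK π) (Y × Q)) × (R × Q) × Bool :=
  (liftW D t f.1 (lvl (π := π) t f), (f.2.1, lvl (π := π) t f), f.2.2)

/-- The lift of the relators. -/
noncomputable def liftR (rel : R → List (Letter A Y)) (i : R × Q) :
    List (Letter (AK π) (Y × Q)) :=
  liftW D t (rel i.1) i.2

theorem bigF_facVal (rel : R → List (Letter A Y))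
    (ht : ∀ r, theta π t (evalW (rel r)) = 1) (f : List (Letter A Y) × R × Bool) :
    bigF (totCoc D) t (facVal rel f) 1 = facVal (liftR D t rel) (liftF D t f) := by
  have hz := theta_sg t f.2.2 _ (ht f.2.1)
  simp only [facVal, bigF]
  rw [Fn_conj _ t _ _ _ hz, mul_one]
  simp only [liftF, liftR, evalW_liftW, lvl, bigF]
  congr 2
  cases hb : f.2.2
  · simp only [sg, Bool.false_eq_true, if_false]
    rw [Fn_inv_of_ker _ t _ _ (ht f.2.1)]
  · simp [sg]

/-- The lift of a witness. -/
noncomputable def Wit.lift (W : Wit A Y R) (ht : ∀ r, theta π t (evalW (W.rel r)) = 1)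
    (hpt : ∀ x y : Q, x ≠ y → ∃ d, ∃ f ∈ Phi Q d, f x ≠ f y) :
    Wit (AK π) (Y × Q) (R × Q) where
  gw := liftC D W.gw 1
  fac := W.fac.map (liftF D t)
  rel := liftR D t W.rel
  indep := by
    have h := rows_indep (totCoc D) t (fun r => evalW (W.rel r)) W.indep hpt
    simp only [liftR, evalW_liftW]
    exact h
  ident := by
    have h1 := congrArg (fun z => bigF (totCoc D) t z 1) W.ident
    simp only [bigF] at h1
    rw [Fn_inl, Fn_list_prod t _ _ _ _ 1] at h1
    · rw [evalC_liftC]
      simp only [List.map_map]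
      have h2 : (bigCoc (totCoc D) Y).k (evalC W.gw) 1 = Monoid.Coprod.inl ((totCoc D).k (evalC W.gw) 1) :=
        rfl
      rw [← h2, h1]
      congr 1
      rw [List.map_map]
      apply List.map_congr_left
      intro f _
      exact bigF_facVal D t W.rel ht f
    · intro z hz
      obtain ⟨f, _, rfl⟩ := List.mem_map.1 hz
      exact theta_facVal t W.rel ht f

theorem wtC_le_one (c : Σ v, A v) : wtC c ≤ 1 := by
  unfold wtC
  split <;> omega

theorem wtC_liftCo_le (c : Σ v, A v) (x : Q) : wtC (liftCo D c x) ≤ wtC c := by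
  rcases c with ⟨v, a⟩
  by_cases ha : a = 1
  · subst ha
    have : (liftCo D ⟨v, 1⟩ x).2 = 1 := (D v).coc_one x
    simp [wtC, this]
  · rw [wtC_of_ne ha]
    exact wtC_le_one _

theorem wtL_liftL_le (l : Letter A Y) (x : Q) : wtL (liftL D t l x) ≤ wtL l := by
  rcases l with c | ⟨y, b⟩
  · exact wtC_liftCo_le D c x
  · cases b <;> exact le_refl _

theorem wtW_liftW_le (W : List (Letter A Y)) (x : Q) : wtW (liftW D t W x) ≤ wtW W := by
  induction W with
  | nil => simp [liftW]
  | cons l W ih =>
    simp only [liftW, wtW_cons]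
    exact Nat.add_le_add (wtL_liftL_le D t l _) ih

theorem wtCW_liftC_le (W : List (Σ v, A v)) (x : Q) : wtCW (liftC D W x) ≤ wtCW W := by
  induction W with
  | nil => simp [liftC]
  | cons l W ih =>
    simp only [liftC, wtCW_cons]
    exact Nat.add_le_add (wtC_liftCo_le D l _) ih

theorem wtW_liftW_lt (W₁ W₂ : List (Letter A Y)) (c : Σ v, A v) (x : Q)
    (h : wtC (liftCo D c (theta π t (evalW W₂) * x)) < wtC c) :
    wtW (liftW D t (W₁ ++ Sum.inl c :: W₂) x) < wtW (W₁ ++ Sum.inl c :: W₂) := by
  induction W₁ with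
  | nil =>
    simp only [List.nil_append, liftW, wtW_cons]
    exact Nat.add_lt_add_of_lt_of_le h (wtW_liftW_le D t W₂ x)
  | cons l W₁ ih =>
    simp only [List.cons_append, liftW, wtW_cons]
    exact Nat.add_lt_add_of_le_of_lt (wtL_liftL_le D t l _) ih

theorem wtCW_liftC_lt (W₁ W₂ : List (Σ v, A v)) (c : Σ v, A v) (x : Q)
    (h : wtC (liftCo D c (π (evalC W₂) * x)) < wtC c) :
    wtCW (liftC D (W₁ ++ c :: W₂) x) < wtCW (W₁ ++ c :: W₂) := by
  induction W₁ with
  | nil =>
    simp only [List.nil_append, liftC, wtCW_cons]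
    exact Nat.add_lt_add_of_lt_of_le h (wtCW_liftC_le D W₂ x)
  | cons l W₁ ih =>
    simp only [List.cons_append, liftC, wtCW_cons]
    exact Nat.add_lt_add_of_le_of_lt (wtC_liftCo_le D l _) ih

theorem Wit.lift_total_le_facs (W : Wit A Y R) (ht : ∀ r, theta π t (evalW (W.rel r)) = 1)
    (hpt : ∀ x y : Q, x ≠ y → ∃ d, ∃ f ∈ Phi Q d, f x ≠ f y) :
    ((W.lift D t ht hpt).fac.map fun f => wtW f.1 + wtW ((W.lift D t ht hpt).rel f.2.1)).sum
      = (W.fac.map fun f => wtW (liftW D t f.1 (lvl (π := π) t f))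
          + wtW (liftW D t (W.rel f.2.1) (lvl (π := π) t f))).sum := by
  simp only [Wit.lift, List.map_map]
  rfl

/-- If a letter occurs in a witness, there is a level such that killing the cocycle of that letter
at this level decreases the total weight. -/
theorem Wit.exists_kill_level (W : Wit A Y R) (ht : ∀ r, theta π t (evalW (W.rel r)) = 1)
    (hpt : ∀ x y : Q, x ≠ y → ∃ d, ∃ f ∈ Phi Q d, f x ≠ f y) (c : Σ v, A v) (hc : W.Occ c) :
    ∃ y : Q, ∀ D : ∀ v, Transv (pc π v), wtC (liftCo D c y) < wtC c →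
      (W.lift D t ht hpt).total < W.total := by
  have hfac_le : ∀ D : ∀ v, Transv (pc π v),
      ∀ f ∈ W.fac, wtW (liftW D t f.1 (lvl (π := π) t f))
        + wtW (liftW D t (W.rel f.2.1) (lvl (π := π) t f)) ≤ wtW f.1 + wtW (W.rel f.2.1) :=
    fun D f _ => Nat.add_le_add (wtW_liftW_le D t _ _) (wtW_liftW_le D t _ _)
  rcases hc with hc | ⟨f, hf, hc | hc⟩
  · obtain ⟨W₁, W₂, hW⟩ := List.append_of_mem hc
    refine ⟨π (evalC W₂) * 1, fun D hk => ?_⟩
    have h1 : wtCW (liftC D W.gw 1) < wtCW W.gw := by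
      rw [hW]
      exact wtCW_liftC_lt D W₁ W₂ c 1 hk
    have h2 := List.sum_le_sum (hfac_le D)
    unfold Wit.total
    rw [W.lift_total_le_facs D t ht hpt]
    exact Nat.add_lt_add_of_lt_of_le h1 h2
  · obtain ⟨W₁, W₂, hW⟩ := List.append_of_mem hc
    refine ⟨theta π t (evalW W₂) * lvl (π := π) t f, fun D hk => ?_⟩
    have h1 : wtW (liftW D t f.1 (lvl (π := π) t f)) < wtW f.1 := by
      rw [hW]
      exact wtW_liftW_lt D t W₁ W₂ c _ hk
    have h2 := List.sum_lt_sum _ _ (hfac_le D) ⟨f, hf, Nat.add_lt_add_of_lt_of_le h1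
      (wtW_liftW_le D t _ _)⟩
    unfold Wit.total
    rw [W.lift_total_le_facs D t ht hpt]
    exact Nat.add_lt_add_of_le_of_lt (wtCW_liftC_le D _ _) h2
  · obtain ⟨W₁, W₂, hW⟩ := List.append_of_mem hc
    refine ⟨theta π t (evalW W₂) * lvl (π := π) t f, fun D hk => ?_⟩
    have h1 : wtW (liftW D t (W.rel f.2.1) (lvl (π := π) t f)) < wtW (W.rel f.2.1) := by
      rw [hW]
      exact wtW_liftW_lt D t W₁ W₂ c _ hk
    have h2 := List.sum_lt_sum _ _ (hfac_le D) ⟨f, hf, Nat.add_lt_add_of_le_of_lt
      (wtW_liftW_le D t _ _) h1⟩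
    unfold Wit.total
    rw [W.lift_total_le_facs D t ht hpt]
    exact Nat.add_lt_add_of_le_of_lt (wtCW_liftC_le D _ _) h2

/-- The retraction of the free power of kernels to the free product. -/
noncomputable def Xi (γ : V → Q → Monoid.CoprodI A) : Monoid.CoprodI (AK π) →* Monoid.CoprodI A :=
  Monoid.CoprodI.lift fun p =>
    (MulAut.conj (γ p.1 p.2)⁻¹).toMonoidHom.comp
      ((Monoid.CoprodI.of : A p.1 →* _).comp (pc π p.1).ker.subtype)

theorem Xi_of (γ : V → Q → Monoid.CoprodI A) (v : V) (r : Q) (n : (pc π v).ker) :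
    Xi (π := π) γ (Monoid.CoprodI.of (M := AK π) (i := (v, r)) n)
      = (γ v r)⁻¹ * Monoid.CoprodI.of (n : A v) * γ v r := by
  simp [Xi]

/-- The retraction of the cocycle is a conjugation by a section. -/
theorem Xi_tot (β : Q → Monoid.CoprodI A) (γ : V → Q → Monoid.CoprodI A)
    (hco : ∀ v x, Monoid.CoprodI.of ((D v).a x) * γ v ((D v).idx x) = β x)
    (g : Monoid.CoprodI A) : ∀ x : Q,
    Xi (π := π) γ ((totCoc D).k g x) = (β (π g * x))⁻¹ * g * β x := by
  induction g using Monoid.CoprodI.induction_on with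
  | one =>
    intro x
    simp [(totCoc D).k_one]
  | @of v a =>
    intro x
    rw [totCoc, coprodCoc_of]
    simp only [factorCoc]
    rw [Xi_of, ← hco v x, ← hco v (π (Monoid.CoprodI.of a) * x)]
    have h1 : (D v).idx (π (Monoid.CoprodI.of a) * x) = (D v).idx x := (D v).idx_mul a x
    rw [h1]
    simp only [Transv.coc, map_mul, map_inv]
    have h2 : pc π v a = π (Monoid.CoprodI.of a) := rfl
    rw [h2]
    group
  | mul a b ha hb =>
    intro x
    rw [(totCoc D).k_mul, map_mul, ha, hb, map_mul, mul_assoc (π a)]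
    group

end lift

end Vale.Agent.P174.Rel
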