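import Vale.Agent.P174.Rel.Lift

/-!
# The relative Howie theorem.
-/

universe u y r

namespace Vale.Agent.P174.Rel

open Monoid

section step

variable {V : Type u} {A : V → Type u} [∀ v, Group (A v)] {Y : Type y} {R : Type r}

/-- The lifting step for a homomorphism of one factor to the rationals, nontrivial on a letter
occurring in the witness. -/
theorem Wit.lift_step (W : Wit A Y R) (v₀ : V) (φ : A v₀ →* Qm) (a₀ : A v₀) (ha : φ a₀ ≠ 1)
    (hocc : W.Occ ⟨v₀, a₀⟩) :
    ∃ (π : Monoid.CoprodI A →* Qm) (W' : Wit (AK π) (Y × Qm) (R × Qm)),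
      W'.total < W.total ∧ (evalC W'.gw = 1 → evalC W.gw = 1) := by
  classical
  let π : Monoid.CoprodI A →* Qm := Monoid.CoprodI.lift (Function.update (fun _ => 1) v₀ φ)
  have hpc0 : ∀ a, pc π v₀ a = φ a := by
    intro a
    simp [π]
  have hpc : ∀ v, v ≠ v₀ → ∀ a : A v, pc π v a = 1 := by
    intro v hv a
    simp [π, Function.update_of_ne hv]
  obtain ⟨t, ht⟩ := exists_solution π (fun r => evalW (W.rel r)) W.indep
  obtain ⟨y, hy⟩ := W.exists_kill_level t ht Qm_sep ⟨v₀, a₀⟩ hocc
  have hD : ∀ v, ∃ D : Transv (pc π v), (v ≠ v₀ → ∀ x, D.a x = 1 ∧ D.idx x = x) ∧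
      (∀ a : A v, (⟨v, a⟩ : Σ v, A v) = ⟨v₀, a₀⟩ → D.coc a y = 1) := by
    intro v
    by_cases hv : v = v₀
    · subst hv
      obtain ⟨D, hD⟩ := exists_transv_kill (π := pc π v) a₀ y (by rw [hpc0]; exact ha)
      refine ⟨D, fun h => absurd rfl h, ?_⟩
      intro a ha'
      have : a = a₀ := eq_of_heq (Sigma.mk.inj ha').2
      rw [this]
      exact hD
    · refine ⟨Transv.triv (hpc v hv), fun _ x => ⟨rfl, rfl⟩, ?_⟩
      intro a ha'
      exact absurd (congrArg Sigma.fst ha') hv
  choose D hD1 hD2 using hD
  refine ⟨π, W.lift D t ht Qm_sep, hy D ?_, ?_⟩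
  · have h1 : (liftCo D ⟨v₀, a₀⟩ y).2 = 1 := hD2 v₀ a₀ rfl
    have ha₀ : a₀ ≠ 1 := by
      rintro rfl
      simp at ha
    rw [wtC_of_ne ha₀]
    simp [wtC, h1]
  · intro h
    let β : Qm → Monoid.CoprodI A := fun x => Monoid.CoprodI.of ((D v₀).a x)
    let γ : V → Qm → Monoid.CoprodI A := fun v r => if v = v₀ then 1 else β r
    have hco : ∀ v x, Monoid.CoprodI.of ((D v).a x) * γ v ((D v).idx x) = β x := by
      intro v x
      by_cases hv : v = v₀
      · subst hv
        simp [γ, β]
      · obtain ⟨h1, h2⟩ := hD1 v hv x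
        simp [γ, hv, h1, h2]
    have hπ : π (evalC W.gw) = 1 := by
      have h1 := congrArg (theta π t) W.ident
      rw [theta_inl, map_list_prod] at h1
      rw [h1]
      apply List.prod_eq_one
      intro b hb
      obtain ⟨z, hz, rfl⟩ := List.mem_map.1 hb
      obtain ⟨f, _, rfl⟩ := List.mem_map.1 hz
      exact theta_facVal t W.rel ht f
    have hX := Xi_tot D β γ hco (evalC W.gw) 1
    have h1 : (totCoc D).k (evalC W.gw) 1 = 1 := by
      rw [← evalC_liftC]
      exact h
    rw [h1, map_one, hπ, one_mul] at hX
    have h2 : evalC W.gw = β 1 * ((β 1)⁻¹ * evalC W.gw * β 1) * (β 1)⁻¹ := by group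
    rw [h2, ← hX]
    simp

end step

section main

variable (Cl : (H : Type u) → [Group H] → Prop)

/-- The free product of the subgroups generated by the letters of a witness is finitely
generated. -/
theorem Wit.shrink_fg {V : Type u} {A : V → Type u} [∀ v, Group (A v)] {Y : Type y} {R : Type r}
    (W : Wit A Y R) : Group.FG (Monoid.CoprodI fun v => W.Hgp v) := by
  classical
  rw [Group.fg_iff]
  refine ⟨(fun c => Monoid.CoprodI.of (shC W.Hgp c).2) '' {c | W.Occ c}, ?_, W.occ_finite.image _⟩
  rw [eq_top_iff]
  rintro g -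
  induction g using Monoid.CoprodI.induction_on with
  | one => exact Subgroup.one_mem _
  | @of v a =>
    obtain ⟨x, hx⟩ := a
    induction hx using Subgroup.closure_induction with
    | mem x hx =>
      apply Subgroup.subset_closure
      refine ⟨⟨v, x⟩, hx, ?_⟩
      have h2 : shC W.Hgp ⟨v, x⟩ = ⟨v, ⟨x, Subgroup.subset_closure hx⟩⟩ :=
        shC_of_mem W.Hgp (c := ⟨v, x⟩) (Subgroup.subset_closure hx)
      have h3 : ∀ c' : Σ v, W.Hgp v, c' = ⟨v, ⟨x, Subgroup.subset_closure hx⟩⟩ →
          (Monoid.CoprodI.of c'.2 : Monoid.CoprodI fun v => W.Hgp v)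
            = Monoid.CoprodI.of ⟨x, Subgroup.subset_closure hx⟩ := by
        rintro _ rfl
        rfl
      exact h3 _ h2
    | one =>
      have : (⟨1, Subgroup.one_mem _⟩ : W.Hgp v) = 1 := rfl
      rw [this, map_one]
      exact Subgroup.one_mem _
    | mul x y hx hy ihx ihy =>
      have : (⟨x * y, Subgroup.mul_mem _ hx hy⟩ : W.Hgp v) = ⟨x, hx⟩ * ⟨y, hy⟩ := rfl
      rw [this, map_mul]
      exact Subgroup.mul_mem _ ihx ihy
    | inv x hx ih =>
      have : (⟨x⁻¹, Subgroup.inv_mem _ hx⟩ : W.Hgp v) = ⟨x, hx⟩⁻¹ := rfl
      rw [this, map_inv]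
      exact Subgroup.inv_mem _ ih
  | mul a b ha hb => exact Subgroup.mul_mem _ ha hb

/-- The main induction, on the total weight of a witness. -/
theorem wit_main (hsub : ∀ (H : Type u) [Group H] (K : Subgroup H), Cl H → Cl K)
    (hB : ∀ (V : Type u) (A : V → Type u) [∀ v, Group (A v)], (∀ v, Cl (A v)) →
      (∀ v, Group.FG (A v)) → (∀ v, ∀ φ : A v →* Multiplicative ℤ, φ = 1) →
      Group.FG (Monoid.CoprodI A) → AllSolv (Monoid.CoprodI A)) :
    ∀ (T : ℕ) (V : Type u) (A : V → Type u) [∀ v, Group (A v)] (Y R : Type) (W : Wit A Y R),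
      (∀ v, Cl (A v)) → W.total < T → evalC W.gw = 1 := by
  intro T
  induction T with
  | zero =>
    intro V A _ Y R W _ hT
    exact absurd hT (Nat.not_lt_zero _)
  | succ T ih =>
    intro V A _ Y R W hCl hT
    apply W.shrink_faithful
    by_cases hall : ∀ v, ∀ φ : W.Hgp v →* Multiplicative ℤ, φ = 1
    · exact wit_base (hB V _ (fun v => hsub _ _ (hCl v))
        (fun v => (Group.fg_iff_subgroup_fg _).2 (W.Hgp_fg v)) hall W.shrink_fg) W.shrink
    · push Not at hall
      obtain ⟨v₀, φ', hφ'⟩ := hall
      obtain ⟨a, ha, hocc⟩ := W.exists_occ_of_ne v₀ φ' hφ'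
      let cast : Multiplicative ℤ →* Qm := AddMonoidHom.toMultiplicative (Int.castAddHom ℚ)
      have hcast : Function.Injective cast := by
        intro p q hpq
        have h1 : ((Multiplicative.toAdd p : ℤ) : ℚ) = ((Multiplicative.toAdd q : ℤ) : ℚ) := hpq
        exact Multiplicative.toAdd.injective (Int.cast_injective h1)
      have hφ : (cast.comp φ') a ≠ 1 := by
        intro h
        apply ha
        exact (injective_iff_map_eq_one cast).1 hcast _ h
      obtain ⟨π, W', hlt, hfaith⟩ := W.shrink.lift_step v₀ (cast.comp φ') a hφ hocc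
      apply hfaith
      refine ih (V × Qm) (AK π) (Y × Qm) (R × Qm) W' ?_ ?_
      · intro p
        exact hsub _ _ (hsub _ _ (hCl p.1))
      · have := W.shrink_total
        omega

/-- Elements of a normal closure are products of conjugates of generators and their inverses. -/
theorem mem_normalClosure_list {H : Type*} [Group H] {I : Type*} (w : I → H) {z : H}
    (hz : z ∈ Subgroup.normalClosure (Set.range w)) :
    ∃ l : List (H × I × Bool), z = (l.map fun f => f.1 * sg f.2.2 (w f.2.1) * f.1⁻¹).prod := by
  let K : Subgroup H :=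
    { carrier := {z | ∃ l : List (H × I × Bool),
        z = (l.map fun f => f.1 * sg f.2.2 (w f.2.1) * f.1⁻¹).prod}
      one_mem' := ⟨[], by simp⟩
      mul_mem' := by
        rintro a b ⟨l, rfl⟩ ⟨l', rfl⟩
        exact ⟨l ++ l', by simp⟩
      inv_mem' := by
        rintro a ⟨l, rfl⟩
        induction l with
        | nil => exact ⟨[], by simp⟩
        | cons f l ih =>
          obtain ⟨l', hl'⟩ := ih
          refine ⟨l' ++ [(f.1, f.2.1, !f.2.2)], ?_⟩
          simp only [List.map_cons, List.prod_cons, mul_inv_rev, List.map_append, List.prod_append,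
            List.map_nil, List.prod_nil, mul_one]
          rw [hl']
          congr 1
          cases f.2.2 <;> simp [sg, mul_assoc] }
  have hK : K.Normal := ⟨by
    rintro a ⟨l, rfl⟩ g
    induction l with
    | nil => exact ⟨[], by simp⟩
    | cons f l ih =>
      obtain ⟨l', hl'⟩ := ih
      refine ⟨(g * f.1, f.2.1, f.2.2) :: l', ?_⟩
      simp only [List.map_cons, List.prod_cons]
      rw [← hl']
      group⟩
  have hle : Subgroup.normalClosure (Set.range w) ≤ K := by
    refine Subgroup.normalClosure_le_normal ?_
    rintro _ ⟨i, rfl⟩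
    exact ⟨[(1, i, true)], by simp [sg]⟩
  exact hle hz

theorem expYVec_eq_expoVec {G : Type u} [Group G] {n : ℕ} (z : Star G n) (j : Fin n) :
    expYVec z j = (expoVec z j : ℚ) := by
  induction z using star_induction with
  | hinl g => simp
  | hx i =>
    rw [expYVec_inr_of, expoVec_inr_of, Finsupp.single_apply]
    by_cases h : i = j
    · subst h; simp
    · have h' : j ≠ i := fun e => h e.symm
      simp [h, h']
  | hmul a b ha hb => simp [ha, hb]
  | hinv a ha => simp [ha]

/-- The abstract relative theorem. -/
theorem allSolv_of_cl (hsub : ∀ (H : Type u) [Group H] (K : Subgroup H), Cl H → Cl K)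
    (hB : ∀ (V : Type u) (A : V → Type u) [∀ v, Group (A v)], (∀ v, Cl (A v)) →
      (∀ v, Group.FG (A v)) → (∀ v, ∀ φ : A v →* Multiplicative ℤ, φ = 1) →
      Group.FG (Monoid.CoprodI A) → AllSolv (Monoid.CoprodI A))
    (V : Type u) (A : V → Type u) [∀ v, Group (A v)] (hCl : ∀ v, Cl (A v)) :
    AllSolv (Monoid.CoprodI A) := by
  intro n m w hns
  rw [Solvable, injective_iff_map_eq_one]
  intro g hg
  have hg' : (Monoid.Coprod.inl g : Star (Monoid.CoprodI A) n)
      ∈ Subgroup.normalClosure (Set.range w) := by
    simpa [QuotientGroup.eq_one_iff] using hg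
  obtain ⟨l, hl⟩ := mem_normalClosure_list w hg'
  obtain ⟨gw, rfl⟩ := evalC_surj g
  have hsurj := fun r => evalW_surj (A := A) (w r)
  choose rel hrel using hsurj
  have hsurj2 := fun z : Star (Monoid.CoprodI A) n => evalW_surj (A := A) z
  choose uw huw using hsurj2
  let W : Wit A (Fin n) (Fin m) :=
    { gw := gw
      fac := l.map fun f => (uw f.1, f.2.1, f.2.2)
      rel := rel
      indep := by
        simp only [hrel]
        apply LinearIndependent.of_comp
          (Finsupp.linearEquivFunOnFinite ℚ ℚ (Fin n)).toLinearMap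
        have : (⇑(Finsupp.linearEquivFunOnFinite ℚ ℚ (Fin n)).toLinearMap ∘ fun r => expYVec (w r))
            = fun r j => (expoVec (w r) j : ℚ) := by
          ext r j
          simp [expYVec_eq_expoVec]
        rw [this]
        exact hns
      ident := by
        rw [hl, List.map_map]
        congr 1
        apply List.map_congr_left
        intro f _
        simp [facVal, huw, hrel] }
  exact wit_main Cl hsub hB (W.total + 1) V A (Fin n) (Fin m) W hCl (Nat.lt_succ_self _)

end main

section local_ext

/-- The class of groups each of whose finitely generated subgroups either lies in the class `S` or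
has a nontrivial homomorphism to the integers. -/
def LocalExt (S : (H : Type u) → [Group H] → Prop) (G : Type u) [Group G] : Prop :=
  ∀ K : Subgroup G, K.FG → S K ∨ ∃ φ : K →* Multiplicative ℤ, φ ≠ 1

variable {S : (H : Type u) → [Group H] → Prop}

theorem LocalExt.subgroup (hiso : ∀ (H H' : Type u) [Group H] [Group H'], (H ≃* H') → S H → S H')
    {H : Type u} [Group H] (K : Subgroup H) (h : LocalExt S H) : LocalExt S K := by
  intro L hL
  let e : L ≃* L.map K.subtype := L.equivMapOfInjective K.subtype K.subtype_injective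
  have hfg : (L.map K.subtype).FG := by
    have : Group.FG L := (Group.fg_iff_subgroup_fg L).2 hL
    exact (Group.fg_iff_subgroup_fg _).1 (Group.fg_of_surjective (f := e.toMonoidHom) e.surjective)
  rcases h (L.map K.subtype) hfg with h1 | ⟨φ, hφ⟩
  · exact Or.inl (hiso _ _ e.symm h1)
  · refine Or.inr ⟨φ.comp e.toMonoidHom, ?_⟩
    intro h0
    apply hφ
    ext x
    have := DFunLike.congr_fun h0 (e.symm x)
    simpa using congrArg Multiplicative.toAdd this

theorem LocalExt.dich (hiso : ∀ (H H' : Type u) [Group H] [Group H'], (H ≃* H') → S H → S H')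
    {H : Type u} [Group H] (h : LocalExt S H) (hfg : Group.FG H)
    (hφ : ∀ φ : H →* Multiplicative ℤ, φ = 1) : S H := by
  let e : (⊤ : Subgroup H) ≃* H := Subgroup.topEquiv
  rcases h ⊤ (Group.fg_def.1 hfg) with h1 | ⟨φ, hne⟩
  · exact hiso _ _ e h1
  · exfalso
    apply hne
    ext x
    have := DFunLike.congr_fun (hφ (φ.comp e.symm.toMonoidHom)) (e x)
    simpa using congrArg Multiplicative.toAdd this

/-- The relative Howie theorem: if `S` is a good class of groups, closed under isomorphism, then so
is the class of groups each of whose finitely generated subgroups lies in `S` or has a nontrivial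
homomorphism to the integers. -/
theorem goodClass_localExt (hiso : ∀ (H H' : Type u) [Group H] [Group H'], (H ≃* H') → S H → S H')
    (hS : GoodClass S) : GoodClass (LocalExt S) := by
  intro C H _ hH
  exact allSolv_of_cl (LocalExt S) (fun H _ K h => LocalExt.subgroup hiso K h)
    (fun V A _ hCl hfg hφ _ => hS V A fun v => LocalExt.dich hiso (hCl v) (hfg v) (hφ v)) C H hH

theorem allSolv_of_localExt (hiso : ∀ (H H' : Type u) [Group H] [Group H'], (H ≃* H') → S H → S H')
    (hS : GoodClass S) (G : Type u) [Group G] (hG : LocalExt S G) : AllSolv G := by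
  have h1 := goodClass_localExt hiso hS PUnit (fun _ => G) (fun _ => hG)
  exact allSolv_of_injective (Monoid.CoprodI.of (M := fun _ : PUnit => G) (i := PUnit.unit))
    (Monoid.CoprodI.of_injective (M := fun _ : PUnit => G) _) h1

end local_ext

section reductions

/-- Howie's conjecture for a group reduces to finitely generated groups all of whose homomorphisms
to the integers are trivial. -/
theorem allSolv_of_b1 (h : ∀ (G : Type u) [Group G], Group.FG G →
    (∀ φ : G →* Multiplicative ℤ, φ = 1) → AllSolv G) (G : Type u) [Group G] : AllSolv G := by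
  have h1 := allSolv_of_cl (fun _ _ => True) (fun _ _ _ _ => trivial)
    (fun V A _ _ _ hφ hfg => h _ hfg (by
      intro φ
      apply Monoid.CoprodI.ext_hom
      intro v
      exact hφ v _)) PUnit (fun _ => G) (fun _ => trivial)
  exact allSolv_of_injective (Monoid.CoprodI.of (M := fun _ : PUnit => G) (i := PUnit.unit))
    (Monoid.CoprodI.of_injective (M := fun _ : PUnit => G) _) h1

/-- A group is locally indicable when every nontrivial finitely generated subgroup has a nontrivial
homomorphism to the integers. -/
def LocInd (G : Type u) [Group G] : Prop :=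
  ∀ K : Subgroup G, K.FG → K ≠ ⊥ → ∃ φ : K →* Multiplicative ℤ, φ ≠ 1

theorem allSolv_of_subsingleton (G : Type u) [Group G] [Subsingleton G] : AllSolv G := by
  intro n m w _
  exact Function.injective_of_subsingleton _

/-- Howie's theorem: free products of locally indicable groups satisfy the conjecture. -/
theorem allSolv_locInd (V : Type u) (A : V → Type u) [∀ v, Group (A v)] (hA : ∀ v, LocInd (A v)) :
    AllSolv (Monoid.CoprodI A) := by
  refine allSolv_of_cl LocInd ?_ ?_ V A hA
  · intro H _ K hH L hL hne
    let e : L ≃* L.map K.subtype := L.equivMapOfInjective K.subtype K.subtype_injective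
    have hfg : (L.map K.subtype).FG := by
      have : Group.FG L := (Group.fg_iff_subgroup_fg L).2 hL
      exact (Group.fg_iff_subgroup_fg _).1 (Group.fg_of_surjective (f := e.toMonoidHom) e.surjective)
    have hne' : L.map K.subtype ≠ ⊥ := by
      intro h0
      apply hne
      exact (Subgroup.map_eq_bot_iff_of_injective L K.subtype_injective).1 h0
    obtain ⟨φ, hφ⟩ := hH _ hfg hne'
    refine ⟨φ.comp e.toMonoidHom, ?_⟩
    intro h0
    apply hφ
    ext x
    have := DFunLike.congr_fun h0 (e.symm x)
    simpa using congrArg Multiplicative.toAdd this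
  · intro W B _ hCl hfg hφ _
    have htriv : ∀ v, Subsingleton (B v) := by
      intro v
      by_contra hnon
      have hne : (⊤ : Subgroup (B v)) ≠ ⊥ := by
        intro h0
        apply hnon
        have h1 : ∀ a : B v, a = 1 := fun a => Subgroup.mem_bot.1 (h0 ▸ Subgroup.mem_top a)
        exact ⟨fun a b => by rw [h1 a, h1 b]⟩
      obtain ⟨φ, hne2⟩ := hCl v ⊤ (Group.fg_def.1 (hfg v)) hne
      let e : (⊤ : Subgroup (B v)) ≃* B v := Subgroup.topEquiv
      apply hne2
      ext x
      have := DFunLike.congr_fun (hφ v (φ.comp e.symm.toMonoidHom)) (e x)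
      simpa using congrArg Multiplicative.toAdd this
    have : Subsingleton (Monoid.CoprodI B) := by
      constructor
      have hone : ∀ g : Monoid.CoprodI B, g = 1 := by
        intro g
        induction g using Monoid.CoprodI.induction_on with
        | one => rfl
        | @of v a =>
          have := htriv v
          rw [Subsingleton.elim a 1, map_one]
        | mul a b ha hb => rw [ha, hb, one_mul]
      intro a b
      rw [hone a, hone b]
    exact allSolv_of_subsingleton _

/-- Howie's conjecture passes from the free powers of `N` to any extension of `N` by a locally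
indicable group. -/
theorem allSolv_of_extension {G Q : Type u} [Group G] [Group Q] (π : G →* Q) (hQ : LocInd Q)
    (h : ∀ C : Type u, AllSolv (Monoid.CoprodI fun _ : C => π.ker)) : AllSolv G := by
  have h1 := allSolv_of_cl (fun H _ => ∃ f : H →* G, Function.Injective f)
    (fun H _ K ⟨f, hf⟩ => ⟨f.comp K.subtype, hf.comp K.subtype_injective⟩)
    (by
      intro V A _ hCl hfg hφ _
      choose f hf using hCl
      have hker : ∀ v a, π (f v a) = 1 := by
        intro v a
        by_contra hne
        let ψ : A v →* Q := π.comp (f v)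
        have hfgK : ψ.range.FG := by
          have := hfg v
          exact (Group.fg_iff_subgroup_fg _).1
            (Group.fg_of_surjective (f := ψ.rangeRestrict) ψ.rangeRestrict_surjective)
        have hneK : ψ.range ≠ ⊥ := by
          intro h0
          apply hne
          have h2 : ψ a ∈ ψ.range := ⟨a, rfl⟩
          rw [h0] at h2
          exact Subgroup.mem_bot.1 h2
        obtain ⟨φ, hne2⟩ := hQ _ hfgK hneK
        apply hne2
        ext ⟨x, a', rfl⟩
        have h3 := DFunLike.congr_fun (hφ v (φ.comp ψ.rangeRestrict)) a'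
        exact congrArg Multiplicative.toAdd h3
      let g : ∀ v, A v →* π.ker := fun v => (f v).codRestrict π.ker (fun a => hker v a)
      have hg : ∀ v, Function.Injective (g v) := by
        intro v a b hab
        exact hf v (congrArg Subtype.val hab)
      exact allSolv_of_injective (cMap g) (cMap_injective g hg) (h V))
    PUnit (fun _ => G) (fun _ => ⟨MonoidHom.id G, Function.injective_id⟩)
  exact allSolv_of_injective (Monoid.CoprodI.of (M := fun _ : PUnit => G) (i := PUnit.unit))
    (Monoid.CoprodI.of_injective (M := fun _ : PUnit => G) _) h1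

end reductions

end Vale.Agent.P174.Rel
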