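import Vale.Agent.P174.Rel.Action

/-!
# Independence of the universal relators, for arbitrary families of relators and unknowns.
-/

universe u v w y r

namespace Vale.Agent.P174.Rel

open Monoid

section rows

variable {G : Type u} {Q : Type v} {B : Type w} {Y : Type y} {R : Type r} [Group G] [Group Q]
  [Group B] {π : G →* Q}

/-- The free product of the base group with a free group on `Y × Q`. -/
abbrev BigB (B : Type w) (Y : Type y) (Q : Type v) [Group B] : Type (max w y v) :=
  Monoid.Coprod B (FreeGroup (Y × Q))

/-- The universal cocycle with values in `B * F(Y × Q)`. -/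
noncomputable def bigCoc (κ : Coc π B) (Y : Type y) : Coc π (BigB B Y Q) :=
  κ.push Monoid.Coprod.inl

/-- The generators of the free factor. -/
noncomputable def bigTau (B : Type w) [Group B] (Y : Type y) (Q : Type v) (p : Y × Q) :
    BigB B Y Q :=
  Monoid.Coprod.inr (FreeGroup.of p)

/-- The universal extended cocycle. -/
noncomputable def bigF (κ : Coc π B) (t : Y → Q) (w : Monoid.Coprod G (FreeGroup Y)) (x : Q) :
    BigB B Y Q :=
  Fn (bigCoc κ Y) t (bigTau B Y Q) w x

open scoped Classical in
/-- The functional on exponent vectors pairing the `j`-th block with `f`. -/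
noncomputable def pairing (f : Q → ℚ) (j : Y) : (Y × Q →₀ ℚ) →ₗ[ℚ] ℚ :=
  Finsupp.linearCombination ℚ (fun y : Y × Q => if y.1 = j then f y.2 else 0)

/-- The universal Fox-calculus pairing. -/
noncomputable def Afun (κ : Coc π B) (t : Y → Q) (f : Q → ℚ) (j : Y)
    (w : Monoid.Coprod G (FreeGroup Y)) (x : Q) : ℚ :=
  pairing f j (expYVec (bigF κ t w x))

theorem Afun_mul (κ : Coc π B) (t : Y → Q) (f : Q → ℚ) (j : Y)
    (u v : Monoid.Coprod G (FreeGroup Y)) (x : Q) :
    Afun κ t f j (u * v) x = Afun κ t f j u (theta π t v * x) + Afun κ t f j v x := by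
  simp [Afun, bigF, Fn_mul]

theorem Afun_inv (κ : Coc π B) (t : Y → Q) (f : Q → ℚ) (j : Y)
    (u : Monoid.Coprod G (FreeGroup Y)) (x : Q) :
    Afun κ t f j u⁻¹ (theta π t u * x) = - Afun κ t f j u x := by
  simp only [Afun, bigF, Fn_inv, expYVec_inv, map_neg]

theorem Afun_inl (κ : Coc π B) (t : Y → Q) (f : Q → ℚ) (j : Y) (g : G) (x : Q) :
    Afun κ t f j (Monoid.Coprod.inl g) x = 0 := by
  simp [Afun, bigF, bigCoc, Coc.push]

open scoped Classical in
theorem Afun_x (κ : Coc π B) (t : Y → Q) (f : Q → ℚ) (j i : Y) (x : Q) :
    Afun κ t f j (Monoid.Coprod.inr (FreeGroup.of i)) x = if i = j then f x else 0 := by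
  simp [Afun, bigF, bigTau, pairing]

open scoped Classical in
/-- The first-order behaviour of the Fox pairing on polynomial functions. -/
theorem Afun_sub_mem (κ : Coc π B) (t : Y → Q) {d : ℕ} {f : Q → ℚ} (hf : f ∈ Phi Q (d + 1))
    (j : Y) (w : Monoid.Coprod G (FreeGroup Y)) :
    (fun x => Afun κ t f j w x - (expYVec w j) * f x) ∈ Phi Q d := by
  induction w using starY_induction with
  | hinl g =>
    have : (fun x => Afun κ t f j (Monoid.Coprod.inl g : Monoid.Coprod G (FreeGroup Y)) x
        - (expYVec (Monoid.Coprod.inl g : Monoid.Coprod G (FreeGroup Y)) j) * f x) = 0 := by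
      ext x
      simp [Afun_inl]
    rw [this]
    exact Submodule.zero_mem _
  | hx i =>
    have : (fun x => Afun κ t f j (Monoid.Coprod.inr (FreeGroup.of i) :
          Monoid.Coprod G (FreeGroup Y)) x
        - (expYVec (Monoid.Coprod.inr (FreeGroup.of i) : Monoid.Coprod G (FreeGroup Y)) j) * f x)
        = 0 := by
      ext x
      rw [Afun_x, expYVec_inr_of, Finsupp.single_apply]
      by_cases h : i = j
      · subst h; simp
      · simp [h]
    rw [this]
    exact Submodule.zero_mem _
  | hmul u v hu hv =>
    have h1 := translate_mem_Phi hu (theta π t v)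
    have h2 := (Phi Q d).smul_mem (expYVec u j) (hf (theta π t v))
    have := (Phi Q d).add_mem ((Phi Q d).add_mem h1 h2) hv
    convert this using 1
    ext x
    simp only [Afun_mul, expYVec_mul, Finsupp.add_apply, Pi.add_apply, Pi.smul_apply, smul_eq_mul]
    ring
  | hinv u hu =>
    have h1 := translate_mem_Phi hu (theta π t u)⁻¹
    have h2 := (Phi Q d).smul_mem (-(expYVec u j)) (hf (theta π t u)⁻¹)
    have := (Phi Q d).add_mem ((Phi Q d).neg_mem h1) h2
    convert this using 1
    ext x
    have h3 := Afun_inv κ t f j u ((theta π t u)⁻¹ * x)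
    simp only [mul_inv_cancel_left] at h3
    simp only [h3, expYVec_inv, Finsupp.neg_apply, Pi.add_apply, Pi.neg_apply, Pi.smul_apply,
      smul_eq_mul]
    ring

/-- Independence of the universal relators, given separating polynomial functions and independent
exponent vectors. -/
theorem rows_indep (κ : Coc π B) (t : Y → Q) (w : R → Monoid.Coprod G (FreeGroup Y))
    (hns : LinearIndependent ℚ (fun r => expYVec (w r)))
    (hpt : ∀ x y : Q, x ≠ y → ∃ d, ∃ f ∈ Phi Q d, f x ≠ f y) :
    LinearIndependent ℚ (fun i : R × Q => expYVec (bigF κ t (w i.1) i.2)) := by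
  classical
  rw [linearIndependent_iff]
  intro c hc
  -- pair the relation with all functionals
  have hpair : ∀ (f : Q → ℚ) (j : Y),
      ∑ i ∈ c.support, c i * Afun κ t f j (w i.1) i.2 = 0 := by
    intro f j
    have := congrArg (pairing f j) hc
    rw [Finsupp.linearCombination_apply, Finsupp.sum, map_sum, map_zero] at this
    simpa [Afun] using this
  -- the main induction
  have hmain : ∀ (d : ℕ) (f : Q → ℚ), f ∈ Phi Q d → ∀ r : R,
      ∑ i ∈ c.support, c i * (if i.1 = r then f i.2 else 0) = 0 := by
    intro d
    induction d with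
    | zero =>
      intro f hf r
      rw [mem_Phi_zero] at hf
      subst hf
      simp
    | succ d ih =>
      intro f hf
      let s : Finset R := c.support.image Prod.fst
      have hs : ∀ r ∈ s, ∑ i ∈ c.support, c i * (if i.1 = r then f i.2 else 0) = 0 := by
        rw [linearIndependent_iff'] at hns
        refine hns s _ ?_
        ext j
        simp only [Finsupp.coe_finsetSum, Finset.sum_apply, Finsupp.coe_smul, Pi.smul_apply,
          smul_eq_mul, Finsupp.coe_zero, Pi.zero_apply]
        -- the difference functions
        have hh : ∀ r : R,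
            ∑ i ∈ c.support, c i * (if i.1 = r then
              (Afun κ t f j (w r) i.2 - (expYVec (w r) j) * f i.2) else 0) = 0 :=
          fun r => ih _ (Afun_sub_mem κ t hf j (w r)) r
        have h1 := hpair f j
        have h2 : ∑ i ∈ c.support, c i * Afun κ t f j (w i.1) i.2
            = ∑ r ∈ s, ∑ i ∈ c.support, c i * (if i.1 = r then
                (Afun κ t f j (w r) i.2 - (expYVec (w r) j) * f i.2) else 0)
              + ∑ r ∈ s, (∑ i ∈ c.support, c i * (if i.1 = r then f i.2 else 0))
                  * (expYVec (w r) j) := by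
          rw [← Finset.sum_add_distrib]
          have : ∀ r : R, ∑ i ∈ c.support, c i * (if i.1 = r then
                (Afun κ t f j (w r) i.2 - (expYVec (w r) j) * f i.2) else 0)
              + (∑ i ∈ c.support, c i * (if i.1 = r then f i.2 else 0)) * (expYVec (w r) j)
              = ∑ i ∈ c.support, c i * (if i.1 = r then Afun κ t f j (w r) i.2 else 0) := by
            intro r
            rw [Finset.sum_mul, ← Finset.sum_add_distrib]
            refine Finset.sum_congr rfl fun i _ => ?_
            by_cases h : i.1 = r
            · simp only [h, if_true]; ring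
            · simp [h]
          rw [Finset.sum_congr rfl fun r _ => this r, Finset.sum_comm]
          refine Finset.sum_congr rfl fun i hi => ?_
          rw [← Finset.mul_sum]
          congr 1
          rw [Finset.sum_eq_single i.1]
          · simp
          · intro r _ hr
            have : i.1 ≠ r := fun e => hr e.symm
            simp [this]
          · intro hnot
            exact absurd (Finset.mem_image_of_mem Prod.fst hi) hnot
        rw [h2, Finset.sum_eq_zero (fun r _ => hh r), zero_add] at h1
        exact h1
      intro r
      by_cases hr : r ∈ s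
      · exact hs r hr
      · apply Finset.sum_eq_zero
        intro i hi
        have : i.1 ≠ r := by
          rintro rfl
          exact hr (Finset.mem_image_of_mem Prod.fst hi)
        simp [this]
  -- conclude
  ext ⟨r, x₀⟩
  by_contra hne
  have hne' : c (r, x₀) ≠ 0 := by simpa using hne
  let S : Finset Q := (c.support.image Prod.snd).erase x₀
  obtain ⟨d, f, hf, hfx, hfS⟩ := exists_poly_of_sep hpt x₀ S (by simp [S])
  have h := hmain d f hf r
  rw [Finset.sum_eq_single (r, x₀)] at h
  · simp only [if_true] at h
    exact (mul_ne_zero hne' hfx) h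
  · rintro ⟨r', x⟩ hi hne2
    by_cases hr : r' = r
    · subst hr
      have hx : x ≠ x₀ := fun e => hne2 (by rw [e])
      have : f x = 0 := by
        apply hfS
        simp only [S, Finset.mem_erase, Finset.mem_image]
        exact ⟨hx, ⟨(r', x), hi, rfl⟩⟩
      simp [this]
    · simp [hr]
  · intro hnot
    simp only [Finsupp.mem_support_iff, not_not] at hnot
    exact absurd hnot hne'

end rows

section solution

variable {G : Type u} {Y : Type y} {R : Type r} [Group G]

/-- The group in which the unknowns are solved: the additive group of the rationals, written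
multiplicatively. -/
abbrev Qm : Type := Multiplicative ℚ

/-- A system with independent exponent vectors over a group mapping to `ℚ` can be solved in `ℚ`. -/
theorem exists_solution (π : G →* Qm) (w : R → Monoid.Coprod G (FreeGroup Y))
    (hns : LinearIndependent ℚ (fun r => expYVec (w r))) :
    ∃ t : Y → Qm, ∀ r, theta π t (w r) = 1 := by
  classical
  let b : R → ℚ := fun r => - Multiplicative.toAdd (theta π (1 : Y → Qm) (w r))
  let l₀ := (Finsupp.linearCombination ℚ b).comp hns.repr
  obtain ⟨l, hl⟩ := LinearMap.exists_extend l₀
  have hval : ∀ r, l (expYVec (w r)) = b r := by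
    intro r
    have hmem : expYVec (w r) ∈ Submodule.span ℚ (Set.range fun r => expYVec (w r)) :=
      Submodule.subset_span ⟨r, rfl⟩
    have h1 := LinearMap.congr_fun hl ⟨_, hmem⟩
    simp only [LinearMap.comp_apply, Submodule.subtype_apply] at h1
    rw [h1]
    simp only [l₀, LinearMap.comp_apply]
    rw [hns.repr_eq_single r ⟨_, hmem⟩ rfl]
    simp
  let t : Y → Qm := fun y => Multiplicative.ofAdd (l (Finsupp.single y 1))
  have key : ∀ z : Monoid.Coprod G (FreeGroup Y),
      Multiplicative.toAdd (theta π t z)
        = Multiplicative.toAdd (theta π (1 : Y → Qm) z) + l (expYVec z) := by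
    intro z
    induction z using starY_induction with
    | hinl g => simp
    | hx j => simp [t]
    | hmul u v hu hv =>
      simp only [map_mul, toAdd_mul, expYVec_mul, map_add, hu, hv]
      ring
    | hinv u hu =>
      simp only [map_inv, toAdd_inv, expYVec_inv, map_neg, hu]
      ring
  refine ⟨t, fun r => ?_⟩
  apply Multiplicative.toAdd.injective
  rw [key, hval]
  simp [b]

/-- Polynomial functions separate the points of `Qm`. -/
theorem Qm_sep (x y : Qm) (h : x ≠ y) : ∃ d, ∃ f ∈ Phi Qm d, f x ≠ f y := by
  refine ⟨2, fun z => Multiplicative.toAdd z, ?_, ?_⟩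
  · intro g
    have : (fun x : Qm => Multiplicative.toAdd (g * x) - Multiplicative.toAdd x)
        = fun _ => Multiplicative.toAdd g := by
      ext x
      simp
    rw [this]
    exact const_mem_Phi _
  · exact fun e => h (Multiplicative.toAdd.injective e)

end solution

end Vale.Agent.P174.Rel
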