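import Vale.Agent.P174.Rel.Rows
import Vale.Agent.P174.Rel.Inject

/-!
# Finite witnesses: words in the letters of a free product with unknowns, and their weight.
-/

universe u y r

namespace Vale.Agent.P174.Rel

open Monoid

section words

variable {V : Type u} {A : V → Type u} [∀ v, Group (A v)] {Y : Type y} {R : Type r}

/-- The free product of the free product of the family `A` with a free group on `Y`. -/
abbrev BG (A : V → Type u) [∀ v, Group (A v)] (Y : Type y) : Type (max u y) :=
  Monoid.Coprod (Monoid.CoprodI A) (FreeGroup Y)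

/-- The letters of words in `BG A Y`: a coefficient, or an unknown with a sign. -/
abbrev Letter (A : V → Type u) (Y : Type y) : Type (max u y) := (Σ v, A v) ⊕ (Y × Bool)

/-- The value of a letter. -/
noncomputable def evalL : Letter A Y → BG A Y
  | Sum.inl c => Monoid.Coprod.inl (Monoid.CoprodI.of c.2)
  | Sum.inr (y, true) => Monoid.Coprod.inr (FreeGroup.of y)
  | Sum.inr (y, false) => (Monoid.Coprod.inr (FreeGroup.of y))⁻¹

/-- The value of a word. -/
noncomputable def evalW (W : List (Letter A Y)) : BG A Y := (W.map evalL).prod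

/-- The value of a word in the coefficients. -/
noncomputable def evalC (W : List (Σ v, A v)) : Monoid.CoprodI A :=
  (W.map fun c => Monoid.CoprodI.of c.2).prod

@[simp] theorem evalW_nil : evalW ([] : List (Letter A Y)) = 1 := rfl

@[simp] theorem evalW_cons (l : Letter A Y) (W : List (Letter A Y)) :
    evalW (l :: W) = evalL l * evalW W := by
  simp [evalW]

@[simp] theorem evalW_append (W W' : List (Letter A Y)) :
    evalW (W ++ W') = evalW W * evalW W' := by
  simp [evalW]

@[simp] theorem evalC_nil : evalC ([] : List (Σ v, A v)) = 1 := rfl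

@[simp] theorem evalC_cons (c : Σ v, A v) (W : List (Σ v, A v)) :
    evalC (c :: W) = Monoid.CoprodI.of c.2 * evalC W := by
  simp [evalC]

@[simp] theorem evalC_append (W W' : List (Σ v, A v)) :
    evalC (W ++ W') = evalC W * evalC W' := by
  simp [evalC]

theorem evalC_surj (g : Monoid.CoprodI A) : ∃ W : List (Σ v, A v), evalC W = g := by
  induction g using Monoid.CoprodI.induction_on with
  | one => exact ⟨[], rfl⟩
  | @of v a => exact ⟨[⟨v, a⟩], by simp⟩
  | mul a b ha hb =>
    obtain ⟨W, rfl⟩ := ha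
    obtain ⟨W', rfl⟩ := hb
    exact ⟨W ++ W', by simp⟩

theorem evalW_surj (z : BG A Y) : ∃ W : List (Letter A Y), evalW W = z := by
  induction z using Monoid.Coprod.induction_on with
  | inl g =>
    obtain ⟨W, rfl⟩ := evalC_surj g
    refine ⟨W.map Sum.inl, ?_⟩
    induction W with
    | nil => simp
    | cons c W ih => simp [evalL, ih]
  | inr f =>
    induction f using FreeGroup.induction_on with
    | C1 => exact ⟨[], by simp⟩
    | of j => exact ⟨[Sum.inr (j, true)], by simp [evalL]⟩
    | inv_of j _ => exact ⟨[Sum.inr (j, false)], by simp [evalL]⟩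
    | mul a b ha hb =>
      obtain ⟨W, hW⟩ := ha
      obtain ⟨W', hW'⟩ := hb
      exact ⟨W ++ W', by simp [hW, hW']⟩
  | mul a b ha hb =>
    obtain ⟨W, rfl⟩ := ha
    obtain ⟨W', rfl⟩ := hb
    exact ⟨W ++ W', by simp⟩

open scoped Classical in
/-- The weight of a coefficient letter: zero for the identity, one otherwise. -/
noncomputable def wtC (c : Σ v, A v) : ℕ := if c.2 = 1 then 0 else 1

/-- The weight of a letter. -/
noncomputable def wtL : Letter A Y → ℕ
  | Sum.inl c => wtC c
  | Sum.inr _ => 1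

/-- The weight of a word in the coefficients. -/
noncomputable def wtCW (W : List (Σ v, A v)) : ℕ := (W.map wtC).sum

/-- The weight of a word. -/
noncomputable def wtW (W : List (Letter A Y)) : ℕ := (W.map wtL).sum

@[simp] theorem wtCW_nil : wtCW ([] : List (Σ v, A v)) = 0 := rfl

@[simp] theorem wtCW_cons (c : Σ v, A v) (W : List (Σ v, A v)) :
    wtCW (c :: W) = wtC c + wtCW W := by
  simp [wtCW]

@[simp] theorem wtCW_append (W W' : List (Σ v, A v)) :
    wtCW (W ++ W') = wtCW W + wtCW W' := by
  simp [wtCW]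

@[simp] theorem wtW_nil : wtW ([] : List (Letter A Y)) = 0 := rfl

@[simp] theorem wtW_cons (l : Letter A Y) (W : List (Letter A Y)) :
    wtW (l :: W) = wtL l + wtW W := by
  simp [wtW]

@[simp] theorem wtW_append (W W' : List (Letter A Y)) :
    wtW (W ++ W') = wtW W + wtW W' := by
  simp [wtW]

theorem wtC_one (v : V) : wtC (⟨v, 1⟩ : Σ v, A v) = 0 := by simp [wtC]

theorem wtC_of_ne {v : V} {a : A v} (h : a ≠ 1) : wtC (⟨v, a⟩ : Σ v, A v) = 1 := by
  simp [wtC, h]

/-- A sign applied to a group element. -/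
def sg {H : Type*} [Group H] (b : Bool) (z : H) : H := if b then z else z⁻¹

theorem sg_mem {H : Type*} [Group H] (K : Subgroup H) (b : Bool) {z : H} (hz : z ∈ K) :
    sg b z ∈ K := by
  cases b
  · simpa [sg] using K.inv_mem hz
  · simpa [sg] using hz

/-- The value of a factor: the conjugate of a relator or its inverse by a word. -/
noncomputable def facVal (rel : R → List (Letter A Y)) (f : List (Letter A Y) × R × Bool) :
    BG A Y :=
  evalW f.1 * sg f.2.2 (evalW (rel f.2.1)) * (evalW f.1)⁻¹

variable (A Y R) in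
/-- A witness of a nontrivial coefficient in the normal closure of a system with independent
exponent vectors. -/
structure Wit where
  /-- the coefficient word -/
  gw : List (Σ v, A v)
  /-- the factors of the product of conjugates of relators -/
  fac : List (List (Letter A Y) × R × Bool)
  /-- the relators -/
  rel : R → List (Letter A Y)
  indep : LinearIndependent ℚ (fun r => expYVec (evalW (rel r)))
  ident : Monoid.Coprod.inl (evalC gw) = (fac.map (facVal rel)).prod

/-- The total weight of the words of a witness, relators counted as used in the factorization. -/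
noncomputable def Wit.total (W : Wit A Y R) : ℕ :=
  wtCW W.gw + (W.fac.map fun f => wtW f.1 + wtW (W.rel f.2.1)).sum

/-- A coefficient letter occurs in the words of a witness. -/
def Wit.Occ (W : Wit A Y R) (c : Σ v, A v) : Prop :=
  c ∈ W.gw ∨ ∃ f ∈ W.fac, (Sum.inl c ∈ f.1 ∨ Sum.inl c ∈ W.rel f.2.1)

theorem Wit.occ_finite (W : Wit A Y R) : {c | W.Occ c}.Finite := by
  classical
  have h1 : ∀ L : List (Letter A Y), {c : Σ v, A v | Sum.inl c ∈ L}.Finite := by
    intro L
    refine (List.finite_toSet L).preimage ?_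
    exact Sum.inl_injective.injOn
  have h2 : {c | W.Occ c} = {c | c ∈ W.gw} ∪ ⋃ f ∈ {f | f ∈ W.fac},
      ({c | Sum.inl c ∈ f.1} ∪ {c | Sum.inl c ∈ W.rel f.2.1}) := by
    ext c
    simp [Wit.Occ]
  rw [h2]
  refine (List.finite_toSet W.gw).union ?_
  refine (List.finite_toSet W.fac).biUnion ?_
  intro f _
  exact (h1 _).union (h1 _)

theorem facVal_mem_normalClosure (rel : R → List (Letter A Y))
    (f : List (Letter A Y) × R × Bool) :
    facVal rel f ∈ Subgroup.normalClosure (Set.range fun r => evalW (rel r)) := by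
  have h1 : evalW (rel f.2.1) ∈ Subgroup.normalClosure (Set.range fun r => evalW (rel r)) :=
    Subgroup.subset_normalClosure ⟨f.2.1, rfl⟩
  exact Subgroup.Normal.conj_mem inferInstance _ (sg_mem _ _ h1) _

/-- Base of the induction: a witness over a free product satisfying the conjecture. -/
theorem wit_base (hB : AllSolv (Monoid.CoprodI A)) (W : Wit A Y R) : evalC W.gw = 1 := by
  have hinj := compact hB (fun r => evalW (W.rel r)) W.indep
  rw [injective_iff_map_eq_one] at hinj
  apply hinj
  have hmem : (Monoid.Coprod.inl (evalC W.gw) : BG A Y)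
      ∈ Subgroup.normalClosure (Set.range fun r => evalW (W.rel r)) := by
    rw [W.ident]
    apply Subgroup.list_prod_mem
    intro z hz
    obtain ⟨f, _, rfl⟩ := List.mem_map.1 hz
    exact facVal_mem_normalClosure _ _
  simpa [QuotientGroup.eq_one_iff] using hmem

end words

section shrink

variable {V : Type u} {A : V → Type u} [∀ v, Group (A v)] {Y : Type y} {R : Type r}

/-- The exponent vector of a letter of coefficient type vanishes. -/
theorem expYVec_evalL_inl (c : Σ v, A v) :
    expYVec (evalL (Sum.inl c : Letter A Y)) = 0 := by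
  simp [evalL]

section

variable (H : ∀ v, Subgroup (A v))

open scoped Classical in
/-- Restrict a coefficient letter to a family of subgroups, letters outside being replaced by the
identity. -/
noncomputable def shC (c : Σ v, A v) : Σ v, H v :=
  if h : c.2 ∈ H c.1 then ⟨c.1, ⟨c.2, h⟩⟩ else ⟨c.1, 1⟩

/-- Restrict a letter to a family of subgroups. -/
noncomputable def shL : Letter A Y → Letter (fun v => H v) Y
  | Sum.inl c => Sum.inl (shC H c)
  | Sum.inr p => Sum.inr p

/-- The inclusion of coefficient groups. -/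
noncomputable def iotaC : Monoid.CoprodI (fun v => H v) →* Monoid.CoprodI A :=
  cMap fun v => (H v).subtype

theorem iotaC_injective : Function.Injective (iotaC H) :=
  cMap_injective _ fun v => (H v).subtype_injective

/-- The inclusion of the free products with unknowns. -/
noncomputable def iotaB (Y : Type y) :
    BG (fun v => H v) Y →* BG A Y :=
  Monoid.Coprod.map (iotaC H) (MonoidHom.id _)

theorem iotaB_injective : Function.Injective (iotaB H Y) :=
  coprod_map_injective _ (iotaC_injective H)

theorem shC_of_mem {c : Σ v, A v} (h : c.2 ∈ H c.1) : shC H c = ⟨c.1, ⟨c.2, h⟩⟩ := by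
  simp [shC, h]

theorem iotaC_shC {c : Σ v, A v} (h : c.2 ∈ H c.1) :
    iotaC H (Monoid.CoprodI.of (shC H c).2) = Monoid.CoprodI.of c.2 := by
  rw [shC_of_mem H h]
  simp [iotaC]

theorem iotaC_evalC {gw : List (Σ v, A v)} (h : ∀ c ∈ gw, c.2 ∈ H c.1) :
    iotaC H (evalC (gw.map (shC H))) = evalC gw := by
  induction gw with
  | nil => simp
  | cons c W ih =>
    simp only [List.map_cons, evalC_cons, map_mul]
    rw [iotaC_shC H (h c (by simp)), ih fun c' hc' => h c' (by simp [hc'])]

theorem iotaB_evalL {l : Letter A Y} (h : ∀ c, l = Sum.inl c → c.2 ∈ H c.1) :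
    iotaB H Y (evalL (shL H l)) = evalL l := by
  rcases l with c | ⟨y, b⟩
  · simp only [shL, evalL, iotaB]
    rw [Monoid.Coprod.map_apply_inl, iotaC_shC H (h c rfl)]
  · cases b
    · simp [shL, evalL, iotaB]
    · simp [shL, evalL, iotaB]

theorem iotaB_evalW {W : List (Letter A Y)} (h : ∀ c, Sum.inl c ∈ W → c.2 ∈ H c.1) :
    iotaB H Y (evalW (W.map (shL H))) = evalW W := by
  induction W with
  | nil => simp
  | cons l W ih =>
    simp only [List.map_cons, evalW_cons, map_mul]
    rw [iotaB_evalL H (fun c hc => h c (by simp [hc])), ih fun c hc => h c (by simp [hc])]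

theorem expYVec_shL (W : List (Letter A Y)) :
    expYVec (evalW (W.map (shL H))) = expYVec (evalW W) := by
  induction W with
  | nil => simp
  | cons l W ih =>
    simp only [List.map_cons, evalW_cons, expYVec_mul, ih]
    congr 1
    rcases l with c | ⟨y, b⟩
    · simp [shL, evalL]
    · cases b <;> simp [shL, evalL]

theorem wtC_shC (c : Σ v, A v) : wtC (shC H c) ≤ wtC c := by
  rcases c with ⟨v, a⟩
  by_cases h : a ∈ H v
  · have h1 : shC H ⟨v, a⟩ = ⟨v, ⟨a, h⟩⟩ := shC_of_mem H h
    rw [h1]
    by_cases ha : a = 1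
    · subst ha
      have h2 : (⟨1, h⟩ : H v) = 1 := rfl
      simp [wtC, h2]
    · have h2 : (⟨a, h⟩ : H v) ≠ 1 := fun e => ha (congrArg Subtype.val e)
      simp [wtC, ha, h2]
  · have h1 : shC H ⟨v, a⟩ = ⟨v, 1⟩ := by simp [shC, h]
    rw [h1, wtC_one]
    exact Nat.zero_le _

theorem wtL_shL (l : Letter A Y) : wtL (shL H l) ≤ wtL l := by
  rcases l with c | p
  · exact wtC_shC H c
  · exact le_refl _

theorem wtCW_shC (W : List (Σ v, A v)) : wtCW (W.map (shC H)) ≤ wtCW W := by
  induction W with
  | nil => simp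
  | cons c W ih =>
    simp only [List.map_cons, wtCW_cons]
    exact Nat.add_le_add (wtC_shC H c) ih

theorem wtW_shL (W : List (Letter A Y)) : wtW (W.map (shL H)) ≤ wtW W := by
  induction W with
  | nil => simp
  | cons c W ih =>
    simp only [List.map_cons, wtW_cons]
    exact Nat.add_le_add (wtL_shL H c) ih

end

/-- The subgroups generated by the coefficient letters occurring in a witness. -/
def Wit.Hgp (W : Wit A Y R) (v : V) : Subgroup (A v) :=
  Subgroup.closure {a | W.Occ ⟨v, a⟩}

theorem Wit.Hgp_fg (W : Wit A Y R) (v : V) : (W.Hgp v).FG := by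
  rw [Subgroup.fg_iff]
  refine ⟨_, rfl, ?_⟩
  exact W.occ_finite.preimage (sigma_mk_injective (i := v)).injOn

theorem Wit.mem_Hgp (W : Wit A Y R) {c : Σ v, A v} (h : W.Occ c) : c.2 ∈ W.Hgp c.1 :=
  Subgroup.subset_closure h

/-- The restriction of a witness to the subgroups generated by its letters. -/
noncomputable def Wit.shrink (W : Wit A Y R) : Wit (fun v => W.Hgp v) Y R where
  gw := W.gw.map (shC W.Hgp)
  fac := W.fac.map fun f => (f.1.map (shL W.Hgp), f.2.1, f.2.2)
  rel := fun r => (W.rel r).map (shL W.Hgp)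
  indep := by
    simp only [expYVec_shL]
    exact W.indep
  ident := by
    apply iotaB_injective W.Hgp
    have h1 : iotaB W.Hgp Y (Monoid.Coprod.inl (evalC (W.gw.map (shC W.Hgp))))
        = Monoid.Coprod.inl (evalC W.gw) := by
      rw [iotaB, Monoid.Coprod.map_apply_inl, iotaC_evalC]
      intro c hc
      exact W.mem_Hgp (Or.inl hc)
    rw [h1, W.ident, map_list_prod, List.map_map, List.map_map]
    congr 1
    apply List.map_congr_left
    intro f hf
    simp only [Function.comp_apply, facVal, map_mul, map_inv]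
    have h2 : iotaB W.Hgp Y (evalW (f.1.map (shL W.Hgp))) = evalW f.1 :=
      iotaB_evalW W.Hgp fun c hc => W.mem_Hgp (Or.inr ⟨f, hf, Or.inl hc⟩)
    have h3 : iotaB W.Hgp Y (evalW ((W.rel f.2.1).map (shL W.Hgp))) = evalW (W.rel f.2.1) :=
      iotaB_evalW W.Hgp fun c hc => W.mem_Hgp (Or.inr ⟨f, hf, Or.inr hc⟩)
    have h4 : ∀ b : Bool, iotaB W.Hgp Y (sg b (evalW ((W.rel f.2.1).map (shL W.Hgp))))
        = sg b (evalW (W.rel f.2.1)) := by
      intro b
      cases b
      · simp [sg, h3]
      · simp [sg, h3]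
    rw [h2, h4]

theorem Wit.shrink_total (W : Wit A Y R) : W.shrink.total ≤ W.total := by
  refine Nat.add_le_add (wtCW_shC _ _) ?_
  simp only [Wit.shrink, List.map_map]
  apply List.sum_le_sum
  intro f _
  simp only [Function.comp_apply]
  exact Nat.add_le_add (wtW_shL _ _) (wtW_shL _ _)

theorem Wit.shrink_faithful (W : Wit A Y R) (h : evalC W.shrink.gw = 1) : evalC W.gw = 1 := by
  have h1 : iotaC W.Hgp (evalC (W.gw.map (shC W.Hgp))) = evalC W.gw :=
    iotaC_evalC W.Hgp fun c hc => W.mem_Hgp (Or.inl hc)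
  rw [← h1]
  have h2 : evalC (W.gw.map (shC W.Hgp)) = 1 := h
  rw [h2, map_one]

theorem Wit.shrink_occ (W : Wit A Y R) {c : Σ v, A v} (hc : W.Occ c) :
    W.shrink.Occ (shC W.Hgp c) := by
  rcases hc with hc | ⟨f, hf, hc | hc⟩
  · exact Or.inl (List.mem_map.2 ⟨c, hc, rfl⟩)
  · exact Or.inr ⟨(f.1.map (shL W.Hgp), f.2.1, f.2.2), List.mem_map.2 ⟨f, hf, rfl⟩,
      Or.inl (List.mem_map.2 ⟨Sum.inl c, hc, rfl⟩)⟩
  · exact Or.inr ⟨(f.1.map (shL W.Hgp), f.2.1, f.2.2), List.mem_map.2 ⟨f, hf, rfl⟩,
      Or.inr (List.mem_map.2 ⟨Sum.inl c, hc, rfl⟩)⟩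

/-- A nontrivial homomorphism on one of the generated subgroups is nontrivial on a letter occurring
in the shrunken witness. -/
theorem Wit.exists_occ_of_ne (W : Wit A Y R) (v : V) {T : Type*} [Group T]
    (φ : W.Hgp v →* T) (hφ : φ ≠ 1) :
    ∃ a : W.Hgp v, φ a ≠ 1 ∧ W.shrink.Occ ⟨v, a⟩ := by
  by_contra hcon
  push Not at hcon
  apply hφ
  ext ⟨x, hx⟩
  simp only [MonoidHom.one_apply]
  induction hx using Subgroup.closure_induction with
  | mem x hx =>
    by_contra hne
    have hc : W.Occ ⟨v, x⟩ := hx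
    have h1 := W.shrink_occ hc
    have h2 : shC W.Hgp ⟨v, x⟩ = ⟨v, ⟨x, Subgroup.subset_closure hx⟩⟩ :=
      shC_of_mem W.Hgp (c := ⟨v, x⟩) (Subgroup.subset_closure hx)
    rw [h2] at h1
    exact hcon _ hne h1
  | one => exact map_one φ
  | mul x y hx hy ihx ihy =>
    have : (⟨x * y, Subgroup.mul_mem _ hx hy⟩ : W.Hgp v) = ⟨x, hx⟩ * ⟨y, hy⟩ := rfl
    rw [this, map_mul, ihx, ihy, one_mul]
  | inv x hx ih =>
    have : (⟨x⁻¹, Subgroup.inv_mem _ hx⟩ : W.Hgp v) = ⟨x, hx⟩⁻¹ := rfl
    rw [this, map_inv, ih, inv_one]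

end shrink

end Vale.Agent.P174.Rel
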